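import Vale.Agent.P098.Six.S13.Root

/-!
# P098, six dimensions: checked pieces of the tree
-/

namespace Vale.Agent.P098.Six.S13

/-- A piece of the tree. -/
noncomputable def tree30 : Tree LeafX :=
  .s1
    (.leaf (.skip 0 8))
    (.s2
    (.s0
    (.s2
    (.s0
    (.s2
    (.s1
    (.s0
    (.leaf (.box ⟨112, 2, -512, 8, 5, 199, 794995, 0, 0, 0, 0, 0, 0⟩ ⟨0, 0, 0, 0, 0, 0, 637329, 0, 0, 0, 0, 0, 0⟩ ⟨0, 0, 0, 0, 0, 0, 637329, 0, 0, 0, 0, 0, 0⟩ ⟨0, 0, 0, 0, 0, 0, 531851, 0, 0, 0, 0, 0, 0⟩ ⟨0, 0, 0, 0, 0, 0, 531851, 0, 0, 0, 0, 0, 0⟩ ⟨345, 10, -512, 24, 12, 235, 456328, 0, 0, 0, 0, 0, 0⟩))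
    (.leaf (.skip 0 8)))
    (.s0
    (.s1
    (.leaf (.box ⟨117, 1, -621, 6, -2, 240, 767517, 0, 0, 0, 0, 0, 0⟩ ⟨0, 0, 0, 0, 0, 0, 623793, 0, 0, 0, 0, 0, 0⟩ ⟨0, 0, 0, 0, 0, 0, 623793, 0, 0, 0, 0, 0, 0⟩ ⟨0, 0, 0, 0, 0, 0, 525407, 0, 0, 0, 0, 0, 0⟩ ⟨0, 0, 0, 0, 0, 0, 525407, 0, 0, 0, 0, 0, 0⟩ ⟨134, 2, -512, 9, -4, 184, 453827, 0, 0, 0, 0, 0, 0⟩))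
    (.leaf (.box ⟨118, 1, -686, 6, -7, 260, 748921, 0, 0, 0, 0, 0, 0⟩ ⟨0, 0, 0, 0, 0, 0, 617099, 0, 0, 0, 0, 0, 0⟩ ⟨0, 0, 0, 0, 0, 0, 617099, 0, 0, 0, 0, 0, 0⟩ ⟨0, 0, 0, 0, 0, 0, 524736, 0, 0, 0, 0, 0, 0⟩ ⟨0, 0, 0, 0, 0, 0, 524736, 0, 0, 0, 0, 0, 0⟩ ⟨91, 1, -512, 7, -8, 164, 456422, 0, 0, 0, 0, 0, 0⟩)))
    (.s2
    (.s1
    (.leaf (.box ⟨105, 1, -614, 6, -4, 273, 879773, 0, 0, 0, 0, 0, 0⟩ ⟨0, 0, 0, 0, 0, 0, 708863, 0, 0, 0, 0, 0, 0⟩ ⟨0, 0, 0, 0, 0, 0, 708863, 0, 0, 0, 0, 0, 0⟩ ⟨0, 0, 0, 0, 0, 0, 593554, 0, 0, 0, 0, 0, 0⟩ ⟨0, 0, 0, 0, 0, 0, 593554, 0, 0, 0, 0, 0, 0⟩ ⟨145, 3, -512, 9, -6, 214, 510511, 0, 0, 0, 0, 0, 0⟩))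
    (.leaf (.box ⟨108, 1, -686, 6, -10, 300, 856843, 0, 0, 0, 0, 0, 0⟩ ⟨0, 0, 0, 0, 0, 0, 701031, 0, 0, 0, 0, 0, 0⟩ ⟨0, 0, 0, 0, 0, 0, 701031, 0, 0, 0, 0, 0, 0⟩ ⟨0, 0, 0, 0, 0, 0, 593167, 0, 0, 0, 0, 0, 0⟩ ⟨0, 0, 0, 0, 0, 0, 593167, 0, 0, 0, 0, 0, 0⟩ ⟨94, 1, -512, 7, -11, 187, 514069, 0, 0, 0, 0, 0, 0⟩)))
    (.leaf (.box ⟨97, 1, -512, 7, -7, 245, 872480, 0, 0, 0, 0, 0, 0⟩ ⟨0, 0, 0, 0, 0, 0, 708355, 0, 0, 0, 0, 0, 0⟩ ⟨0, 0, 0, 0, 0, 0, 708355, 0, 0, 0, 0, 0, 0⟩ ⟨0, 0, 0, 0, 0, 0, 596202, 0, 0, 0, 0, 0, 0⟩ ⟨0, 0, 0, 0, 0, 0, 596202, 0, 0, 0, 0, 0, 0⟩ ⟨190, 3, -512, 12, -11, 212, 514708, 0, 46195523, 0, 0, 0, 0⟩)))))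
    (.s1
    (.leaf (.box ⟨235, 3, -512, 13, 3, 273, 793019, 0, 0, 0, 0, 0, 0⟩ ⟨0, 0, 0, 0, 0, 0, 638534, 0, 0, 0, 0, 0, 0⟩ ⟨0, 0, 0, 0, 0, 0, 638534, 0, 0, 0, 0, 0, 0⟩ ⟨0, 0, 0, 0, 0, 0, 534424, 0, 0, 0, 0, 0, 0⟩ ⟨0, 0, 0, 0, 0, 0, 534424, 0, 0, 0, 0, 0, 0⟩ ⟨512, 12, -309, 31, 7, 230, 459504, 0, 0, 0, 0, 0, 0⟩))
    (.leaf (.box ⟨230, 1, -512, 12, -9, 257, 766218, 0, 0, 0, 0, 0, 0⟩ ⟨0, 0, 0, 0, 0, 0, 628704, 0, 0, 0, 0, 0, 0⟩ ⟨0, 0, 0, 0, 0, 0, 628704, 0, 0, 0, 0, 0, 0⟩ ⟨0, 0, 0, 0, 0, 0, 533038, 0, 0, 0, 0, 0, 0⟩ ⟨0, 0, 0, 0, 0, 0, 533038, 0, 0, 0, 0, 0, 0⟩ ⟨300, 3, -512, 16, -13, 213, 462641, 0, 5605374, 0, 0, 0, 0⟩))))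
    (.s1
    (.leaf (.skip 0 8))
    (.s2
    (.leaf (.box ⟨220, 2, -512, 13, -13, 327, 993948, 0, 0, 0, 0, 0, 30217812254⟩ ⟨0, 0, 0, 0, 0, 0, 798516, 0, 0, 0, 0, 0, 0⟩ ⟨0, 0, 0, 0, 0, 0, 798516, 0, 0, 0, 0, 0, 0⟩ ⟨0, 0, 0, 0, 0, 0, 667308, 0, 0, 0, 0, 0, 0⟩ ⟨0, 0, 0, 0, 0, 0, 667308, 0, 0, 0, 0, 0, 0⟩ ⟨401, 6, -512, 22, -21, 288, 573133, 0, 0, 0, 0, 0, 0⟩))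
    (.leaf (.box ⟨442, 3, -512, 21, -23, 473, 982430, 0, 0, 0, 0, 0, 0⟩ ⟨0, 0, 0, 0, 0, 0, 794581, 0, 0, 0, 0, 0, 0⟩ ⟨0, 0, 0, 0, 0, 0, 794581, 0, 0, 0, 0, 0, 0⟩ ⟨0, 0, 0, 0, 0, 0, 667038, 0, 0, 0, 0, 0, 0⟩ ⟨0, 0, 0, 0, 0, 0, 667038, 0, 0, 0, 0, 0, 0⟩ ⟨512, 6, -397, 26, -27, 301, 574776, 0, 0, 0, 0, 0, 0⟩)))))
    (.s2
    (.leaf (.box ⟨512, 4, -202, 28, -10, 263, 775380, 0, 0, 0, 0, 0, 0⟩ ⟨0, 0, 0, 0, 0, 0, 630741, 0, 0, 0, 0, 0, 0⟩ ⟨0, 0, 0, 0, 0, 0, 630741, 0, 0, 0, 0, 0, 0⟩ ⟨0, 0, 0, 0, 0, 0, 531579, 0, 0, 0, 0, 0, 0⟩ ⟨0, 0, 0, 0, 0, 0, 531579, 0, 0, 0, 0, 0, 0⟩ ⟨512, 9, -57, 34, -6, 94, 459361, 0, 0, 0, 0, 0, 0⟩))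
    (.leaf (.box ⟨512, 3, 13, 21, -10, 174, 757509, 0, 0, 0, 0, 0, 0⟩ ⟨0, 0, 0, 0, 0, 0, 619437, 0, 0, 0, 0, 0, 0⟩ ⟨0, 0, 0, 0, 0, 0, 619437, 0, 0, 0, 0, 0, 0⟩ ⟨0, 0, 0, 0, 0, 0, 523938, 0, 0, 0, 0, 0, 0⟩ ⟨0, 0, 0, 0, 0, 0, 523938, 0, 0, 0, 0, 0, 0⟩ ⟨512, 6, 10, 28, -6, 66, 453951, 0, 0, 0, 0, 0, 0⟩))))
    (.leaf (.skip 0 8)))
    (.s2
    (.s0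
    (.leaf (.box ⟨512, 1, 107, 15, -5, 55, 700653, 0, 0, 0, 0, 0, 0⟩ ⟨0, 0, 0, 0, 0, 0, 585622, 0, 0, 0, 0, 0, 0⟩ ⟨0, 0, 0, 0, 0, 0, 585622, 0, 0, 0, 0, 0, 0⟩ ⟨0, 0, 0, 0, 0, 0, 503036, 0, 0, 0, 0, 0, 0⟩ ⟨0, 0, 0, 0, 0, 0, 503036, 0, 0, 0, 0, 0, 0⟩ ⟨512, 2, 41, 21, -4, 25, 440863, 0, 0, 0, 0, 5457753318, 123751357⟩))
    (.leaf (.skip 8 0)))
    (.leaf (.skip 8 0))))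

/-- A piece of the tree. -/
noncomputable def tree31 : Tree LeafX :=
  .s1
    (.s0
    (.leaf (.box ⟨143, -2, -512, 15, 11, 81, 188332, 0, 0, 0, 0, 0, 0⟩ ⟨0, 0, 0, 0, 0, 0, 165273, 0, 0, 0, 0, 0, 0⟩ ⟨0, 0, 0, 0, 0, 0, 165273, 0, 0, 0, 0, 0, 0⟩ ⟨0, 0, 0, 0, 0, 0, 147245, 0, 0, 0, 0, 0, 0⟩ ⟨0, 0, 0, 0, 0, 0, 147245, 0, 0, 0, 0, 0, 0⟩ ⟨107, -4, -512, 25, 16, 92, 132762, 0, 0, 0, 0, 0, 0⟩))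
    (.s2
    (.leaf (.box ⟨146, 1, -512, 16, 8, 114, 315330, 0, 0, 0, 0, 0, 0⟩ ⟨0, 0, 0, 0, 0, 0, 266315, 0, 0, 0, 0, 0, 0⟩ ⟨0, 0, 0, 0, 0, 0, 266315, 0, 0, 0, 0, 0, 0⟩ ⟨0, 0, 0, 0, 0, 0, 230488, 0, 0, 0, 0, 0, 0⟩ ⟨0, 0, 0, 0, 0, 0, 230488, 0, 0, 0, 0, 0, 0⟩ ⟨94, 3, -512, 24, 12, 112, 203157, 0, 0, 0, 0, 0, 0⟩))
    (.s0
    (.leaf (.box ⟨100, -1, -512, 11, 2, 107, 322096, 0, 0, 0, 0, 0, 0⟩ ⟨0, 0, 0, 0, 0, 0, 281509, 0, 0, 0, 0, 0, 0⟩ ⟨0, 0, 0, 0, 0, 0, 281509, 0, 0, 0, 0, 0, 0⟩ ⟨0, 0, 0, 0, 0, 0, 250005, 0, 0, 0, 0, 0, 0⟩ ⟨0, 0, 0, 0, 0, 0, 250005, 0, 0, 0, 0, 0, 0⟩ ⟨64, -2, -512, 13, 3, 103, 224843, 0, 0, 0, 0, 0, 0⟩))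
    (.s2
    (.leaf (.box ⟨89, 0, -512, 10, -1, 129, 435806, 0, 0, 0, 0, 0, 0⟩ ⟨0, 0, 0, 0, 0, 0, 375195, 0, 0, 0, 0, 0, 0⟩ ⟨0, 0, 0, 0, 0, 0, 375195, 0, 0, 0, 0, 0, 0⟩ ⟨0, 0, 0, 0, 0, 0, 329384, 0, 0, 0, 0, 0, 0⟩ ⟨0, 0, 0, 0, 0, 0, 329384, 0, 0, 0, 0, 0, 0⟩ ⟨73, 0, -512, 12, -1, 116, 293543, 0, 0, 0, 0, 0, 0⟩))
    (.leaf (.box ⟨109, -1, -512, 10, -3, 137, 479214, 0, 0, 0, 0, 0, 0⟩ ⟨0, 0, 0, 0, 0, 0, 413016, 0, 0, 0, 0, 0, 0⟩ ⟨0, 0, 0, 0, 0, 0, 413016, 0, 0, 0, 0, 0, 0⟩ ⟨0, 0, 0, 0, 0, 0, 362887, 0, 0, 0, 0, 0, 0⟩ ⟨0, 0, 0, 0, 0, 0, 362887, 0, 0, 0, 0, 0, 0⟩ ⟨93, -1, -512, 11, -4, 118, 323609, 0, 0, 0, 0, 0, 0⟩))))))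
    (.s2
    (.leaf (.box ⟨296, -6, -512, 17, 5, 108, 467750, 0, 0, 0, 0, 0, 0⟩ ⟨232, -15, -512, 42, 15, 109, 162368, 0, 0, 0, 0, 0, 0⟩ ⟨232, -15, -512, 42, 15, 109, 162368, 0, 0, 0, 0, 0, 0⟩ ⟨163, -13, -512, 36, 15, 110, 161935, 0, 0, 0, 0, 0, 0⟩ ⟨163, -13, -512, 36, 15, 110, 161935, 0, 0, 0, 0, 0, 0⟩ ⟨123, -6, -512, 18, 9, 113, 293971, 0, 0, 0, 0, 0, 0⟩))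
    (.s1
    (.leaf (.box ⟨308, -24, -512, 46, 4, 104, 185742, 0, 0, 0, 0, 0, 0⟩ ⟨0, 0, 0, 0, 0, 0, 171070, 0, 0, 0, 0, 0, 0⟩ ⟨0, 0, 0, 0, 0, 0, 171070, 0, 0, 0, 0, 0, 0⟩ ⟨0, 0, 0, 0, 0, 0, 158545, 0, 0, 0, 0, 0, 0⟩ ⟨0, 0, 0, 0, 0, 0, 158545, 0, 0, 0, 0, 0, 0⟩ ⟨101, -13, -512, 32, 5, 102, 147729, 0, 0, 0, 0, 0, 0⟩))
    (.s0
    (.leaf (.box ⟨152, -18, -512, 16, 12, 81, 185611, 0, 0, 0, 0, 0, 0⟩ ⟨0, 0, 0, 0, 0, 0, 175287, 0, 0, 0, 0, 0, 0⟩ ⟨0, 0, 0, 0, 0, 0, 175287, 0, 0, 0, 0, 0, 0⟩ ⟨0, 0, 0, 0, 0, 0, 166051, 0, 0, 0, 0, 0, 0⟩ ⟨0, 0, 0, 0, 0, 0, 166051, 0, 0, 0, 0, 0, 0⟩ ⟨49, -7, -512, 12, 11, 95, 157739, 0, 0, 0, 0, 0, 0⟩))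
    (.leaf (.box ⟨195, -14, -512, 21, 1, 113, 304353, 0, 0, 0, 0, 0, 0⟩ ⟨0, 0, 0, 0, 0, 0, 282959, 0, 0, 0, 0, 0, 0⟩ ⟨0, 0, 0, 0, 0, 0, 282959, 0, 0, 0, 0, 0, 0⟩ ⟨0, 0, 0, 0, 0, 0, 264374, 0, 0, 0, 0, 0, 0⟩ ⟨0, 0, 0, 0, 0, 0, 264374, 0, 0, 0, 0, 0, 0⟩ ⟨60, -6, -512, 14, 2, 107, 248080, 0, 0, 0, 0, 0, 0⟩)))))

/-- A piece of the tree. -/
noncomputable def tree32 : Tree LeafX :=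
  .s0
    (.leaf (.box ⟨153, 3, -512, 19, -1, 161, 561885, 0, 0, 0, 0, 0, 0⟩ ⟨0, 0, 0, 0, 0, 0, 456414, 0, 0, 0, 0, 0, 0⟩ ⟨0, 0, 0, 0, 0, 0, 456414, 0, 0, 0, 0, 0, 0⟩ ⟨0, 0, 0, 0, 0, 0, 384281, 0, 0, 0, 0, 0, 0⟩ ⟨0, 0, 0, 0, 0, 0, 384281, 0, 0, 0, 0, 0, 0⟩ ⟨122, 9, -512, 29, -3, 139, 331836, 0, 0, 0, 0, 0, 0⟩))
    (.s1
    (.leaf (.box ⟨172, 4, -512, 16, -9, 227, 1129130, 0, 0, 0, 0, 0, 36947873596⟩ ⟨0, 0, 0, 0, 0, 0, 857306, 0, 0, 0, 0, 0, 0⟩ ⟨0, 0, 0, 0, 0, 0, 857306, 0, 0, 0, 0, 0, 0⟩ ⟨0, 0, 0, 0, 0, 0, 690965, 0, 0, 0, 0, 0, 0⟩ ⟨0, 0, 0, 0, 0, 0, 690965, 0, 0, 0, 0, 0, 0⟩ ⟨158, 14, -512, 27, -19, 182, 578684, 0, 0, 0, 0, 0, 0⟩))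
    (.leaf (.box ⟨167, 4, -512, 20, -12, 224, 988996, 0, 0, 0, 0, 0, 37690300316⟩ ⟨0, 0, 0, 0, 0, 0, 778897, 0, 0, 0, 0, 0, 0⟩ ⟨0, 0, 0, 0, 0, 0, 778897, 0, 0, 0, 0, 0, 0⟩ ⟨0, 0, 0, 0, 0, 0, 642422, 0, 0, 0, 0, 0, 0⟩ ⟨0, 0, 0, 0, 0, 0, 642422, 0, 0, 0, 0, 0, 0⟩ ⟨122, 10, -512, 29, -21, 171, 546642, 0, 0, 0, 0, 0, 0⟩)))

/-- A piece of the tree. -/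
noncomputable def tree33 : Tree LeafX :=
  .s2
    (.s0
    (.leaf (.box ⟨100, 1, -512, 11, -5, 159, 594879, 0, 0, 0, 0, 0, 0⟩ ⟨0, 0, 0, 0, 0, 0, 503381, 0, 0, 0, 0, 0, 0⟩ ⟨0, 0, 0, 0, 0, 0, 503381, 0, 0, 0, 0, 0, 0⟩ ⟨0, 0, 0, 0, 0, 0, 436278, 0, 0, 0, 0, 0, 0⟩ ⟨0, 0, 0, 0, 0, 0, 436278, 0, 0, 0, 0, 0, 0⟩ ⟨100, 1, -512, 14, -7, 133, 384960, 0, 0, 0, 0, 0, 0⟩))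
    (.s2
    (.leaf (.box ⟨179, 1, -983, 6, -5, 368, 2997349, 0, 0, 0, 0, 0, 0⟩ ⟨97, 1, -512, 12, -10, 180, 673564, 0, 0, 0, 0, 0, 0⟩ ⟨97, 1, -512, 12, -10, 180, 673564, 0, 0, 0, 0, 0, 0⟩ ⟨100, 2, -512, 13, -11, 168, 588165, 0, 0, 0, 0, 0, 0⟩ ⟨100, 2, -512, 13, -11, 168, 588165, 0, 0, 0, 0, 0, 0⟩ ⟨105, 1, -512, 8, -7, 153, 921334, 0, 0, 0, 0, 0, 0⟩))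
    (.s0
    (.leaf (.box ⟨156, 0, -1074, 6, -5, 402, 2967905, 0, 0, 0, 0, 0, 0⟩ ⟨81, 1, -512, 9, -10, 179, 699421, 0, 0, 0, 0, 0, 0⟩ ⟨81, 1, -512, 9, -10, 179, 699421, 0, 0, 0, 0, 0, 0⟩ ⟨86, 1, -512, 10, -11, 166, 613883, 0, 0, 0, 0, 0, 0⟩ ⟨86, 1, -512, 10, -11, 166, 613883, 0, 0, 0, 0, 0, 0⟩ ⟨94, 1, -543, 6, -7, 160, 955886, 0, 0, 0, 0, 0, 0⟩))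
    (.s1
    (.s2
    (.leaf (.box ⟨65, 1, -536, 6, -9, 223, 1029644, 0, 0, 0, 0, 0, 0⟩ ⟨0, 0, 0, 0, 0, 0, 834178, 0, 0, 0, 0, 0, 0⟩ ⟨0, 0, 0, 0, 0, 0, 834178, 0, 0, 0, 0, 0, 0⟩ ⟨0, 0, 0, 0, 0, 0, 701084, 0, 0, 0, 0, 0, 0⟩ ⟨0, 0, 0, 0, 0, 0, 701084, 0, 0, 0, 0, 0, 0⟩ ⟨69, 2, -512, 8, -14, 170, 604617, 0, 0, 0, 0, 0, 0⟩))
    (.leaf (.box ⟨206, 1, -1644, 6, -8, 716, 4117239, 0, 0, 0, 0, 0, 1977356444⟩ ⟨69, 1, -512, 7, -12, 209, 855509, 0, 0, 0, 0, 0, 0⟩ ⟨69, 1, -512, 7, -12, 209, 855509, 0, 0, 0, 0, 0, 0⟩ ⟨72, 1, -512, 8, -14, 194, 713173, 0, 0, 0, 0, 0, 0⟩ ⟨72, 1, -512, 8, -14, 194, 713173, 0, 0, 0, 0, 0, 0⟩ ⟨98, 1, -662, 6, -11, 227, 1081475, 0, 0, 0, 0, 0, 0⟩)))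
    (.leaf (.box ⟨69, 0, -512, 7, -14, 213, 959662, 0, 0, 0, 0, 0, 0⟩ ⟨0, 0, 0, 0, 0, 0, 804654, 0, 0, 0, 0, 0, 0⟩ ⟨0, 0, 0, 0, 0, 0, 804654, 0, 0, 0, 0, 0, 0⟩ ⟨0, 0, 0, 0, 0, 0, 692757, 0, 0, 0, 0, 0, 0⟩ ⟨0, 0, 0, 0, 0, 0, 692757, 0, 0, 0, 0, 0, 0⟩ ⟨63, 0, -512, 7, -16, 157, 608181, 0, 0, 0, 0, 0, 0⟩))))))
    (.s1
    (.s0
    (.s2
    (.s1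
    (.leaf (.box ⟨395, 1, -1944, 6, -5, 661, 2787763, 0, 0, 0, 0, 0, 0⟩ ⟨96, 1, -512, 7, -6, 166, 585592, 0, 0, 0, 0, 0, 0⟩ ⟨96, 1, -512, 7, -6, 166, 585592, 0, 0, 0, 0, 0, 0⟩ ⟨86, 1, -512, 8, -7, 157, 494914, 0, 0, 0, 0, 0, 0⟩ ⟨86, 1, -512, 8, -7, 157, 494914, 0, 0, 0, 0, 0, 0⟩ ⟨100, 1, -619, 6, -5, 177, 787836, 0, 0, 0, 0, 0, 0⟩))
    (.leaf (.box ⟨103, 0, -512, 7, -7, 172, 674203, 0, 0, 0, 0, 0, 0⟩ ⟨0, 0, 0, 0, 0, 0, 568195, 0, 0, 0, 0, 0, 0⟩ ⟨0, 0, 0, 0, 0, 0, 568195, 0, 0, 0, 0, 0, 0⟩ ⟨0, 0, 0, 0, 0, 0, 490993, 0, 0, 0, 0, 0, 0⟩ ⟨0, 0, 0, 0, 0, 0, 490993, 0, 0, 0, 0, 0, 0⟩ ⟨75, 0, -512, 9, -9, 139, 432261, 0, 0, 0, 0, 0, 0⟩)))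
    (.leaf (.box ⟨120, 0, -512, 8, -8, 186, 700815, 0, 0, 0, 0, 0, 0⟩ ⟨0, 0, 0, 0, 0, 0, 587814, 0, 0, 0, 0, 0, 0⟩ ⟨0, 0, 0, 0, 0, 0, 587814, 0, 0, 0, 0, 0, 0⟩ ⟨0, 0, 0, 0, 0, 0, 506194, 0, 0, 0, 0, 0, 0⟩ ⟨0, 0, 0, 0, 0, 0, 506194, 0, 0, 0, 0, 0, 0⟩ ⟨108, 1, -512, 10, -11, 148, 444476, 0, 0, 0, 0, 0, 0⟩)))
    (.s2
    (.s0
    (.leaf (.box ⟨239, 1, -1584, 6, -7, 649, 3556886, 0, 0, 0, 0, 0, 0⟩ ⟨82, 1, -512, 7, -11, 196, 754218, 0, 0, 0, 0, 0, 0⟩ ⟨82, 1, -512, 7, -11, 196, 754218, 0, 0, 0, 0, 0, 0⟩ ⟨82, 1, -512, 8, -12, 182, 639208, 0, 0, 0, 0, 0, 0⟩ ⟨82, 1, -512, 8, -12, 182, 639208, 0, 0, 0, 0, 0, 0⟩ ⟨98, 1, -604, 6, -9, 195, 985271, 0, 0, 0, 0, 0, 0⟩))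
    (.s2
    (.leaf (.box ⟨280, 1, -2087, 6, -12, 955, 4128278, 0, 0, 0, 0, 0, 86833260117⟩ ⟨75, 1, -512, 7, -13, 218, 864896, 0, 0, 0, 0, 0, 0⟩ ⟨75, 1, -512, 7, -13, 218, 864896, 0, 0, 0, 0, 0, 0⟩ ⟨79, 1, -512, 8, -15, 201, 724182, 0, 0, 0, 0, 0, 0⟩ ⟨79, 1, -512, 8, -15, 201, 724182, 0, 0, 0, 0, 0, 0⟩ ⟨105, 1, -646, 6, -12, 228, 1097554, 0, 0, 0, 0, 0, 0⟩))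
    (.leaf (.box ⟨78, 1, -512, 7, -13, 248, 1064497, 0, 0, 0, 0, 0, 0⟩ ⟨0, 0, 0, 0, 0, 0, 868810, 0, 0, 0, 0, 0, 0⟩ ⟨0, 0, 0, 0, 0, 0, 868810, 0, 0, 0, 0, 0, 0⟩ ⟨0, 0, 0, 0, 0, 0, 733897, 0, 0, 0, 0, 0, 0⟩ ⟨0, 0, 0, 0, 0, 0, 733897, 0, 0, 0, 0, 0, 0⟩ ⟨91, 1, -512, 8, -18, 187, 635251, 0, 0, 0, 0, 0, 0⟩))))
    (.leaf (.box ⟨340, 1, -1168, 6, -9, 579, 3606434, 0, 0, 0, 0, 0, 0⟩ ⟨146, 1, -512, 11, -17, 232, 776320, 0, 0, 0, 0, 0, 0⟩ ⟨146, 1, -512, 11, -17, 232, 776320, 0, 0, 0, 0, 0, 0⟩ ⟨151, 1, -512, 12, -19, 210, 657366, 0, 0, 0, 0, 0, 0⟩ ⟨151, 1, -512, 12, -19, 210, 657366, 0, 0, 0, 0, 0, 0⟩ ⟨161, 1, -512, 7, -11, 187, 1022908, 0, 0, 0, 0, 0, 0⟩))))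
    (.leaf (.box ⟨210, -1, -512, 16, -16, 199, 639199, 0, 0, 0, 0, 0, 0⟩ ⟨0, 0, 0, 0, 0, 0, 552236, 0, 0, 0, 0, 0, 0⟩ ⟨0, 0, 0, 0, 0, 0, 552236, 0, 0, 0, 0, 0, 0⟩ ⟨0, 0, 0, 0, 0, 0, 486102, 0, 0, 0, 0, 0, 0⟩ ⟨0, 0, 0, 0, 0, 0, 486102, 0, 0, 0, 0, 0, 0⟩ ⟨154, -1, -512, 17, -17, 146, 434113, 0, 0, 0, 0, 0, 0⟩)))

/-- A piece of the tree. -/
noncomputable def tree34 : Tree LeafX :=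
  .s0
    (.s2
    (.s1
    (.s2
    (.leaf (.box ⟨314, 1, -1497, 6, -8, 698, 4770759, 0, 0, 0, 0, 0, 209937829072⟩ ⟨101, 2, -512, 10, -14, 225, 959168, 0, 0, 0, 0, 0, 0⟩ ⟨101, 2, -512, 10, -14, 225, 959168, 0, 0, 0, 0, 0, 0⟩ ⟨110, 3, -512, 12, -17, 208, 767986, 0, 0, 0, 0, 0, 0⟩ ⟨110, 3, -512, 12, -17, 208, 767986, 0, 0, 0, 0, 0, 0⟩ ⟨108, 3, -512, 8, -11, 189, 1150109, 0, 0, 0, 0, 0, 0⟩))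
    (.s0
    (.s1
    (.leaf (.box ⟨322, 1, -1986, 6, -10, 961, 5071330, 0, 0, 0, 0, 0, 256462473666⟩ ⟨81, 1, -512, 7, -13, 234, 1013741, 0, 0, 0, 0, 0, 0⟩ ⟨81, 1, -512, 7, -13, 234, 1013741, 0, 0, 0, 0, 0, 0⟩ ⟨80, 2, -512, 7, -16, 218, 800411, 0, 0, 0, 0, 0, 0⟩ ⟨80, 2, -512, 7, -16, 218, 800411, 0, 0, 0, 0, 0, 0⟩ ⟨108, 2, -699, 6, -14, 271, 1183450, 0, 0, 0, 0, 0, 0⟩))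
    (.leaf (.box ⟨88, 1, -572, 6, -15, 274, 1164814, 0, 0, 0, 0, 0, 0⟩ ⟨0, 0, 0, 0, 0, 0, 944424, 0, 0, 0, 0, 0, 0⟩ ⟨0, 0, 0, 0, 0, 0, 944424, 0, 0, 0, 0, 0, 0⟩ ⟨0, 0, 0, 0, 0, 0, 794163, 0, 0, 0, 0, 0, 0⟩ ⟨0, 0, 0, 0, 0, 0, 794163, 0, 0, 0, 0, 0, 0⟩ ⟨65, 2, -512, 8, -19, 185, 685152, 0, 0, 0, 0, 0, 0⟩)))
    (.leaf (.box ⟨93, 1, -512, 8, -15, 280, 1351043, 0, 0, 0, 0, 0, 46005271153⟩ ⟨0, 0, 0, 0, 0, 0, 1078377, 0, 0, 0, 0, 0, 0⟩ ⟨0, 0, 0, 0, 0, 0, 1078377, 0, 0, 0, 0, 0, 0⟩ ⟨0, 0, 0, 0, 0, 0, 897287, 0, 0, 0, 0, 0, 0⟩ ⟨0, 0, 0, 0, 0, 0, 897287, 0, 0, 0, 0, 0, 0⟩ ⟨107, 3, -512, 10, -23, 213, 768272, 0, 0, 0, 0, 0, 0⟩))))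
    (.leaf (.box ⟨127, 1, -512, 11, -18, 245, 1082719, 0, 0, 0, 0, 0, 0⟩ ⟨0, 0, 0, 0, 0, 0, 892185, 0, 0, 0, 0, 0, 0⟩ ⟨0, 0, 0, 0, 0, 0, 892185, 0, 0, 0, 0, 0, 0⟩ ⟨0, 0, 0, 0, 0, 0, 758676, 0, 0, 0, 0, 0, 0⟩ ⟨0, 0, 0, 0, 0, 0, 758676, 0, 0, 0, 0, 0, 0⟩ ⟨111, 2, -512, 13, -23, 174, 659922, 0, 0, 0, 0, 0, 0⟩)))
    (.s2
    (.s1
    (.s1
    (.leaf (.box ⟨149, 2, -512, 10, -18, 305, 1221292, 0, 0, 0, 0, 0, 48208990159⟩ ⟨0, 0, 0, 0, 0, 0, 980768, 0, 0, 0, 0, 0, 0⟩ ⟨0, 0, 0, 0, 0, 0, 980768, 0, 0, 0, 0, 0, 0⟩ ⟨0, 0, 0, 0, 0, 0, 819395, 0, 0, 0, 0, 0, 0⟩ ⟨0, 0, 0, 0, 0, 0, 819395, 0, 0, 0, 0, 0, 0⟩ ⟨146, 3, -512, 12, -26, 234, 703622, 0, 0, 0, 0, 0, 0⟩))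
    (.leaf (.box ⟨142, 1, -512, 9, -21, 300, 1184743, 0, 0, 0, 0, 0, 0⟩ ⟨0, 0, 0, 0, 0, 0, 968603, 0, 0, 0, 0, 0, 0⟩ ⟨0, 0, 0, 0, 0, 0, 968603, 0, 0, 0, 0, 0, 0⟩ ⟨0, 0, 0, 0, 0, 0, 819159, 0, 0, 0, 0, 0, 0⟩ ⟨0, 0, 0, 0, 0, 0, 819159, 0, 0, 0, 0, 0, 0⟩ ⟨132, 2, -512, 11, -27, 211, 709665, 0, 0, 0, 0, 0, 0⟩)))
    (.leaf (.box ⟨137, 0, -512, 11, -24, 287, 1143922, 0, 0, 0, 0, 0, 0⟩ ⟨0, 0, 0, 0, 0, 0, 957359, 0, 0, 0, 0, 0, 0⟩ ⟨0, 0, 0, 0, 0, 0, 957359, 0, 0, 0, 0, 0, 0⟩ ⟨0, 0, 0, 0, 0, 0, 823116, 0, 0, 0, 0, 0, 0⟩ ⟨0, 0, 0, 0, 0, 0, 823116, 0, 0, 0, 0, 0, 0⟩ ⟨133, 0, -512, 11, -26, 187, 721890, 0, 0, 0, 0, 0, 0⟩)))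
    (.leaf (.box ⟨225, 1, -512, 17, -29, 351, 1205450, 0, 0, 0, 0, 0, 0⟩ ⟨0, 0, 0, 0, 0, 0, 986693, 0, 0, 0, 0, 0, 0⟩ ⟨0, 0, 0, 0, 0, 0, 986693, 0, 0, 0, 0, 0, 0⟩ ⟨0, 0, 0, 0, 0, 0, 835138, 0, 0, 0, 0, 0, 0⟩ ⟨0, 0, 0, 0, 0, 0, 835138, 0, 0, 0, 0, 0, 0⟩ ⟨269, 2, -512, 18, -31, 221, 723941, 0, 0, 0, 0, 0, 0⟩))))
    (.leaf (.box ⟨423, 4, -512, 25, -31, 380, 1447568, 0, 0, 0, 0, 0, 372605063921⟩ ⟨0, 0, 0, 0, 0, 0, 1162001, 0, 0, 0, 0, 0, 0⟩ ⟨0, 0, 0, 0, 0, 0, 1162001, 0, 0, 0, 0, 0, 0⟩ ⟨0, 0, 0, 0, 0, 0, 970539, 0, 0, 0, 0, 0, 0⟩ ⟨0, 0, 0, 0, 0, 0, 970539, 0, 0, 0, 0, 0, 0⟩ ⟨434, 7, -512, 33, -39, 248, 833245, 0, 0, 0, 0, 0, 0⟩))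

/-- A piece of the tree. -/
noncomputable def tree35 : Tree LeafX :=
  .s0
    (.leaf (.box ⟨220, -5, -512, 30, -10, 167, 519538, 0, 0, 0, 0, 0, 0⟩ ⟨0, 0, 0, 0, 0, 0, 439073, 0, 0, 0, 0, 0, 0⟩ ⟨0, 0, 0, 0, 0, 0, 439073, 0, 0, 0, 0, 0, 0⟩ ⟨0, 0, 0, 0, 0, 0, 380189, 0, 0, 0, 0, 0, 0⟩ ⟨0, 0, 0, 0, 0, 0, 380189, 0, 0, 0, 0, 0, 0⟩ ⟨122, -5, -512, 29, -10, 134, 335231, 0, 0, 0, 0, 0, 0⟩))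
    (.leaf (.box ⟨356, -1, -512, 39, -25, 248, 913290, 0, 0, 0, 0, 0, 4564602476⟩ ⟨0, 0, 0, 0, 0, 0, 744198, 0, 0, 0, 0, 0, 0⟩ ⟨0, 0, 0, 0, 0, 0, 744198, 0, 0, 0, 0, 0, 0⟩ ⟨0, 0, 0, 0, 0, 0, 627937, 0, 0, 0, 0, 0, 0⟩ ⟨0, 0, 0, 0, 0, 0, 627937, 0, 0, 0, 0, 0, 0⟩ ⟨228, -2, -512, 39, -28, 168, 543093, 0, 0, 0, 0, 0, 0⟩))

/-- A piece of the tree. -/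
noncomputable def tree36 : Tree LeafX :=
  .s1
    (.s2
    (.s0
    (.s1
    (.leaf (.box ⟨153, -2, -512, 11, 4, 85, 220934, 0, 0, 0, 0, 0, 0⟩ ⟨0, 0, 0, 0, 0, 0, 194356, 0, 0, 0, 0, 0, 0⟩ ⟨0, 0, 0, 0, 0, 0, 194356, 0, 0, 0, 0, 0, 0⟩ ⟨0, 0, 0, 0, 0, 0, 173486, 0, 0, 0, 0, 0, 0⟩ ⟨0, 0, 0, 0, 0, 0, 173486, 0, 0, 0, 0, 0, 0⟩ ⟨79, -2, -512, 10, 5, 88, 156663, 0, 0, 0, 0, 0, 0⟩))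
    (.s1
    (.leaf (.box ⟨123, -3, -512, 9, 5, 83, 216694, 0, 0, 0, 0, 764384567, 0⟩ ⟨0, 0, 0, 0, 0, 0, 194462, 0, 0, 0, 0, 0, 0⟩ ⟨0, 0, 0, 0, 0, 0, 194462, 0, 0, 0, 0, 0, 0⟩ ⟨0, 0, 0, 0, 0, 0, 176367, 0, 0, 0, 0, 0, 0⟩ ⟨0, 0, 0, 0, 0, 0, 176367, 0, 0, 0, 0, 0, 0⟩ ⟨64, -2, -512, 8, 6, 88, 161353, 0, 0, 0, 0, 0, 0⟩))
    (.s2
    (.leaf (.box ⟨112, -5, -512, 10, 6, 82, 215418, 0, 0, 0, 0, 0, 0⟩ ⟨0, 0, 0, 0, 0, 0, 195973, 0, 0, 0, 0, 0, 0⟩ ⟨0, 0, 0, 0, 0, 0, 195973, 0, 0, 0, 0, 0, 0⟩ ⟨0, 0, 0, 0, 0, 0, 179748, 0, 0, 0, 0, 0, 0⟩ ⟨0, 0, 0, 0, 0, 0, 179748, 0, 0, 0, 0, 0, 0⟩ ⟨48, -2, -512, 7, 6, 89, 166003, 0, 0, 0, 0, 0, 0⟩))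
    (.leaf (.box ⟨106, -4, -512, 9, 6, 80, 243129, 0, 0, 0, 0, 1522284813, 0⟩ ⟨0, 0, 0, 0, 0, 0, 219547, 0, 0, 0, 0, 0, 0⟩ ⟨0, 0, 0, 0, 0, 0, 219547, 0, 0, 0, 0, 0, 0⟩ ⟨0, 0, 0, 0, 0, 0, 200135, 0, 0, 0, 0, 0, 0⟩ ⟨0, 0, 0, 0, 0, 0, 200135, 0, 0, 0, 0, 0, 0⟩ ⟨55, -2, -512, 7, 7, 88, 183876, 0, 0, 0, 0, 0, 0⟩)))))
    (.s0
    (.s0
    (.s1
    (.leaf (.box ⟨109, -1, -600, 6, 0, 130, 398041, 0, 0, 0, 0, 0, 0⟩ ⟨0, 0, 0, 0, 0, 0, 344395, 0, 0, 0, 0, 0, 0⟩ ⟨0, 0, 0, 0, 0, 0, 344395, 0, 0, 0, 0, 0, 0⟩ ⟨0, 0, 0, 0, 0, 0, 303492, 0, 0, 0, 0, 0, 0⟩ ⟨0, 0, 0, 0, 0, 0, 303492, 0, 0, 0, 0, 0, 0⟩ ⟨62, -1, -512, 7, 0, 102, 271273, 0, 0, 0, 0, 0, 0⟩))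
    (.leaf (.box ⟨69, -2, -512, 7, 1, 102, 388493, 0, 0, 0, 0, 1156746515, 0⟩ ⟨0, 0, 0, 0, 0, 0, 344330, 0, 0, 0, 0, 0, 0⟩ ⟨0, 0, 0, 0, 0, 0, 344330, 0, 0, 0, 0, 0, 0⟩ ⟨0, 0, 0, 0, 0, 0, 309182, 0, 0, 0, 0, 0, 0⟩ ⟨0, 0, 0, 0, 0, 0, 309182, 0, 0, 0, 0, 0, 0⟩ ⟨33, -2, -512, 8, 2, 99, 280545, 0, 0, 0, 0, 0, 0⟩)))
    (.leaf (.box ⟨325, -1, -1172, 6, -1, 276, 1453314, 0, 0, 0, 0, 0, 0⟩ ⟨126, -2, -512, 9, -1, 116, 396382, 0, 0, 0, 0, 0, 0⟩ ⟨126, -2, -512, 9, -1, 116, 396382, 0, 0, 0, 0, 0, 0⟩ ⟨109, -2, -512, 9, -1, 112, 357241, 0, 0, 0, 0, 0, 0⟩ ⟨109, -2, -512, 9, -1, 112, 357241, 0, 0, 0, 0, 0, 0⟩ ⟨102, -1, -541, 6, -1, 114, 613066, 0, 0, 0, 0, 0, 0⟩)))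
    (.s2
    (.leaf (.box ⟨160, -1, -512, 9, -5, 146, 533986, 0, 0, 0, 0, 0, 0⟩ ⟨0, 0, 0, 0, 0, 0, 458291, 0, 0, 0, 0, 0, 0⟩ ⟨0, 0, 0, 0, 0, 0, 458291, 0, 0, 0, 0, 0, 0⟩ ⟨0, 0, 0, 0, 0, 0, 401392, 0, 0, 0, 0, 0, 0⟩ ⟨0, 0, 0, 0, 0, 0, 401392, 0, 0, 0, 0, 0, 0⟩ ⟨130, -1, -512, 10, -5, 121, 357060, 0, 0, 0, 0, 0, 0⟩))
    (.leaf (.box ⟨263, -2, -512, 12, -6, 155, 583518, 0, 0, 0, 0, 0, 0⟩ ⟨0, 0, 0, 0, 0, 0, 499410, 0, 0, 0, 0, 0, 0⟩ ⟨0, 0, 0, 0, 0, 0, 499410, 0, 0, 0, 0, 0, 0⟩ ⟨0, 0, 0, 0, 0, 0, 436493, 0, 0, 0, 0, 0, 0⟩ ⟨0, 0, 0, 0, 0, 0, 436493, 0, 0, 0, 0, 0, 0⟩ ⟨183, -2, -512, 14, -6, 125, 387655, 0, 0, 0, 0, 0, 0⟩)))))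
    (.s2
    (.s0
    (.s1
    (.leaf (.box ⟨147, -1, -512, 8, 3, 87, 268571, 0, 0, 0, 0, 2148454874, 0⟩ ⟨0, 0, 0, 0, 0, 0, 233099, 0, 0, 0, 0, 0, 0⟩ ⟨0, 0, 0, 0, 0, 0, 233099, 0, 0, 0, 0, 0, 0⟩ ⟨0, 0, 0, 0, 0, 0, 205903, 0, 0, 0, 0, 0, 0⟩ ⟨0, 0, 0, 0, 0, 0, 205903, 0, 0, 0, 0, 0, 0⟩ ⟨90, -1, -512, 9, 4, 88, 184390, 0, 0, 0, 0, 0, 0⟩))
    (.leaf (.box ⟨110, -2, -512, 8, 6, 80, 273542, 0, 0, 0, 0, 2831722868, 0⟩ ⟨0, 0, 0, 0, 0, 0, 241974, 0, 0, 0, 0, 0, 0⟩ ⟨0, 0, 0, 0, 0, 0, 241974, 0, 0, 0, 0, 0, 0⟩ ⟨0, 0, 0, 0, 0, 0, 216938, 0, 0, 0, 0, 0, 0⟩ ⟨0, 0, 0, 0, 0, 0, 216938, 0, 0, 0, 0, 0, 0⟩ ⟨70, -2, -512, 10, 8, 87, 196596, 0, 0, 0, 0, 106747663, 0⟩)))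
    (.leaf (.box ⟨428, -4, -512, 22, -3, 138, 475152, 0, 0, 0, 0, 20349010499, 0⟩ ⟨0, 0, 0, 0, 0, 0, 410597, 0, 0, 0, 0, 0, 0⟩ ⟨0, 0, 0, 0, 0, 0, 410597, 0, 0, 0, 0, 0, 0⟩ ⟨0, 0, 0, 0, 0, 0, 361484, 0, 0, 0, 0, 0, 0⟩ ⟨0, 0, 0, 0, 0, 0, 361484, 0, 0, 0, 0, 0, 0⟩ ⟨255, -3, -512, 22, -2, 118, 322865, 0, 0, 0, 0, 3584710246, 0⟩)))
    (.leaf (.skip 8 0))))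
    (.s2
    (.s2
    (.s0
    (.leaf (.box ⟨126, -13, -512, 16, 9, 77, 216386, 0, 0, 0, 0, 67341406, 0⟩ ⟨0, 0, 0, 0, 0, 0, 199642, 0, 0, 0, 0, 0, 0⟩ ⟨0, 0, 0, 0, 0, 0, 199642, 0, 0, 0, 0, 0, 0⟩ ⟨0, 0, 0, 0, 0, 0, 185302, 0, 0, 0, 0, 0, 0⟩ ⟨0, 0, 0, 0, 0, 0, 185302, 0, 0, 0, 0, 0, 0⟩ ⟨51, -6, -512, 12, 8, 91, 172884, 0, 0, 0, 0, 0, 0⟩))
    (.leaf (.box ⟨189, -11, -512, 20, 2, 108, 388159, 0, 0, 0, 0, 1940549838, 0⟩ ⟨0, 0, 0, 0, 0, 0, 352875, 0, 0, 0, 0, 0, 0⟩ ⟨0, 0, 0, 0, 0, 0, 352875, 0, 0, 0, 0, 0, 0⟩ ⟨0, 0, 0, 0, 0, 0, 323470, 0, 0, 0, 0, 0, 0⟩ ⟨0, 0, 0, 0, 0, 0, 323470, 0, 0, 0, 0, 0, 0⟩ ⟨80, -6, -512, 15, 2, 106, 298589, 0, 0, 0, 0, 0, 0⟩)))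
    (.s0
    (.leaf (.box ⟨106, -8, -512, 13, 8, 75, 247766, 0, 0, 0, 0, 1834133777, 0⟩ ⟨0, 0, 0, 0, 0, 0, 226351, 0, 0, 0, 0, 0, 0⟩ ⟨0, 0, 0, 0, 0, 0, 226351, 0, 0, 0, 0, 0, 0⟩ ⟨0, 0, 0, 0, 0, 0, 208343, 0, 0, 0, 0, 0, 0⟩ ⟨0, 0, 0, 0, 0, 0, 208343, 0, 0, 0, 0, 0, 0⟩ ⟨54, -5, -512, 14, 8, 89, 192989, 0, 0, 0, 0, 949929331, 0⟩))
    (.leaf (.box ⟨165, -7, -512, 16, 4, 102, 455242, 0, 0, 0, 0, 4106916874, 0⟩ ⟨0, 0, 0, 0, 0, 0, 411579, 0, 0, 0, 0, 0, 0⟩ ⟨0, 0, 0, 0, 0, 0, 411579, 0, 0, 0, 0, 0, 0⟩ ⟨0, 0, 0, 0, 0, 0, 375558, 0, 0, 0, 0, 0, 0⟩ ⟨0, 0, 0, 0, 0, 0, 375558, 0, 0, 0, 0, 0, 0⟩ ⟨86, -5, -512, 15, 5, 106, 345334, 0, 0, 0, 0, 0, 0⟩))))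
    (.leaf (.skip 8 0)))

/-- A piece of the tree. -/
noncomputable def tree37 : Tree LeafX :=
  .s1
    (.s2
    (.s0
    (.s2
    (.s0
    (.s1
    (.leaf (.box ⟨222, 0, -512, 11, -12, 214, 725640, 0, 0, 0, 0, 0, 0⟩ ⟨0, 0, 0, 0, 0, 0, 610299, 0, 0, 0, 0, 0, 0⟩ ⟨0, 0, 0, 0, 0, 0, 610299, 0, 0, 0, 0, 0, 0⟩ ⟨0, 0, 0, 0, 0, 0, 526596, 0, 0, 0, 0, 0, 0⟩ ⟨0, 0, 0, 0, 0, 0, 526596, 0, 0, 0, 0, 0, 0⟩ ⟨179, 0, -512, 11, -14, 158, 463083, 0, 0, 0, 0, 0, 0⟩))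
    (.leaf (.box ⟨174, -1, -512, 9, -12, 187, 704864, 0, 0, 0, 0, 0, 0⟩ ⟨0, 0, 0, 0, 0, 0, 611153, 0, 0, 0, 0, 0, 0⟩ ⟨0, 0, 0, 0, 0, 0, 611153, 0, 0, 0, 0, 0, 0⟩ ⟨0, 0, 0, 0, 0, 0, 539436, 0, 0, 0, 0, 0, 0⟩ ⟨0, 0, 0, 0, 0, 0, 539436, 0, 0, 0, 0, 0, 0⟩ ⟨120, -2, -512, 10, -11, 138, 482782, 0, 0, 0, 0, 0, 0⟩)))
    (.leaf (.box ⟨385, 0, -512, 18, -24, 298, 939969, 0, 0, 0, 0, 0, 0⟩ ⟨0, 0, 0, 0, 0, 0, 783585, 0, 0, 0, 0, 0, 0⟩ ⟨0, 0, 0, 0, 0, 0, 783585, 0, 0, 0, 0, 0, 0⟩ ⟨0, 0, 0, 0, 0, 0, 671815, 0, 0, 0, 0, 0, 0⟩ ⟨0, 0, 0, 0, 0, 0, 671815, 0, 0, 0, 0, 0, 0⟩ ⟨322, 0, -512, 16, -23, 187, 587949, 0, 0, 0, 0, 0, 0⟩)))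
    (.leaf (.box ⟨512, -2, -293, 24, -17, 184, 762930, 0, 0, 0, 0, 0, 0⟩ ⟨0, 0, 0, 0, 0, 0, 646358, 0, 0, 0, 0, 0, 0⟩ ⟨0, 0, 0, 0, 0, 0, 646358, 0, 0, 0, 0, 0, 0⟩ ⟨0, 0, 0, 0, 0, 0, 560688, 0, 0, 0, 0, 0, 0⟩ ⟨0, 0, 0, 0, 0, 0, 560688, 0, 0, 0, 0, 0, 0⟩ ⟨512, -3, -483, 37, -23, 174, 495069, 0, 0, 0, 0, 0, 0⟩)))
    (.s1
    (.leaf (.box ⟨512, 1, 26, 17, -16, 141, 1220378, 0, 0, 0, 0, 0, 67667601157⟩ ⟨0, 0, 0, 0, 0, 0, 999248, 0, 0, 0, 0, 0, 0⟩ ⟨0, 0, 0, 0, 0, 0, 999248, 0, 0, 0, 0, 0, 0⟩ ⟨0, 0, 0, 0, 0, 0, 845961, 0, 0, 0, 0, 0, 0⟩ ⟨0, 0, 0, 0, 0, 0, 845961, 0, 0, 0, 0, 0, 0⟩ ⟨512, 3, -68, 24, -23, 114, 733448, 0, 0, 0, 0, 0, 0⟩))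
    (.leaf (.box ⟨512, -1, -74, 22, -24, 186, 1212086, 0, 0, 0, 0, 0, 0⟩ ⟨0, 0, 0, 0, 0, 0, 1025925, 0, 0, 0, 0, 0, 0⟩ ⟨0, 0, 0, 0, 0, 0, 1025925, 0, 0, 0, 0, 0, 0⟩ ⟨0, 0, 0, 0, 0, 0, 889334, 0, 0, 0, 0, 0, 0⟩ ⟨0, 0, 0, 0, 0, 0, 889334, 0, 0, 0, 0, 0, 0⟩ ⟨512, -2, -315, 35, -37, 187, 784841, 0, 0, 0, 0, 0, 0⟩))))
    (.leaf (.skip 8 0)))
    (.s0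
    (.leaf (.box ⟨363, -14, -512, 48, -2, 153, 700677, 0, 0, 0, 0, 34311013007, 0⟩ ⟨0, 0, 0, 0, 0, 0, 624409, 0, 0, 0, 0, 0, 0⟩ ⟨0, 0, 0, 0, 0, 0, 624409, 0, 0, 0, 0, 0, 0⟩ ⟨0, 0, 0, 0, 0, 0, 563115, 0, 0, 0, 0, 0, 0⟩ ⟨0, 0, 0, 0, 0, 0, 563115, 0, 0, 0, 0, 0, 0⟩ ⟨225, -11, -512, 47, 0, 136, 512778, 0, 0, 0, 0, 0, 0⟩))
    (.leaf (.skip 8 0)))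

theorem parts1 :
    (runPathS conQ supQ (fun n Qs i d x => leafR conQ seg n Qs i d x) [.d0 true, .d1 false, .d2 true, .d0 true] tree30 0 0 0
      (joinS (lay.B * lay.size) rootQ) = true) ∧
    (runPathS conQ supQ (fun n Qs i d x => leafR conQ seg n Qs i d x) [.d0 true, .d1 true, .d2 false, .d0 false] tree31 0 0 0
      (joinS (lay.B * lay.size) rootQ) = true) ∧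
    (runPathS conQ supQ (fun n Qs i d x => leafR conQ seg n Qs i d x) [.d0 true, .d1 true, .d2 false, .d0 true, .d1 false, .d2 false] tree32 0 0 0
      (joinS (lay.B * lay.size) rootQ) = true) ∧
    (runPathS conQ supQ (fun n Qs i d x => leafR conQ seg n Qs i d x) [.d0 true, .d1 true, .d2 false, .d0 true, .d1 false, .d2 true, .d0 false] tree33 0 0 0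
      (joinS (lay.B * lay.size) rootQ) = true) ∧
    (runPathS conQ supQ (fun n Qs i d x => leafR conQ seg n Qs i d x) [.d0 true, .d1 true, .d2 false, .d0 true, .d1 false, .d2 true, .d0 true] tree34 0 0 0
      (joinS (lay.B * lay.size) rootQ) = true) ∧
    (runPathS conQ supQ (fun n Qs i d x => leafR conQ seg n Qs i d x) [.d0 true, .d1 true, .d2 false, .d0 true, .d1 true] tree35 0 0 0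
      (joinS (lay.B * lay.size) rootQ) = true) ∧
    (runPathS conQ supQ (fun n Qs i d x => leafR conQ seg n Qs i d x) [.d0 true, .d1 true, .d2 true, .d0 false] tree36 0 0 0
      (joinS (lay.B * lay.size) rootQ) = true) ∧
    (runPathS conQ supQ (fun n Qs i d x => leafR conQ seg n Qs i d x) [.d0 true, .d1 true, .d2 true, .d0 true] tree37 0 0 0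
      (joinS (lay.B * lay.size) rootQ) = true) :=
  ⟨by decide +kernel,
  by decide +kernel,
  by decide +kernel,
  by decide +kernel,
  by decide +kernel,
  by decide +kernel,
  by decide +kernel,
  by decide +kernel⟩

end Vale.Agent.P098.Six.S13
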