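import Vale.Agent.P098.Six.S13.Root

/-!
# P098, six dimensions: checked pieces of the tree
-/

namespace Vale.Agent.P098.Six.S13

/-- A piece of the tree. -/
noncomputable def tree0 : Tree LeafX :=
  .s0
    (.s1
    (.s0
    (.s0
    (.leaf (.box ⟨512, 0, 151, 12, -14, 88, 90733, 0, 0, 0, 0, 0, 0⟩ ⟨0, 0, 0, 0, 0, 0, 76853, 0, 0, 0, 0, 0, 0⟩ ⟨0, 0, 0, 0, 0, 0, 76853, 0, 0, 0, 0, 0, 0⟩ ⟨0, 0, 0, 0, 0, 0, 66656, 0, 0, 0, 0, 0, 0⟩ ⟨0, 0, 0, 0, 0, 0, 66656, 0, 0, 0, 0, 0, 0⟩ ⟨512, 0, -71, 32, -39, 157, 58847, 0, 0, 0, 0, 0, 0⟩))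
    (.leaf (.box ⟨512, -1, -65, 15, -5, 53, 93984, 0, 0, 0, 0, 0, 0⟩ ⟨0, 0, 0, 0, 0, 0, 79741, 0, 0, 0, 0, 0, 0⟩ ⟨0, 0, 0, 0, 0, 0, 79741, 0, 0, 0, 0, 0, 0⟩ ⟨0, 0, 0, 0, 0, 0, 69246, 0, 0, 0, 0, 0, 0⟩ ⟨0, 0, 0, 0, 0, 0, 69246, 0, 0, 0, 0, 0, 0⟩ ⟨512, -1, -179, 38, -15, 93, 61192, 0, 0, 0, 0, 0, 0⟩)))
    (.leaf (.box ⟨512, -1, -446, 35, 3, 54, 101805, 0, 0, 0, 0, 0, 0⟩ ⟨0, 0, 0, 0, 0, 0, 86148, 0, 0, 0, 0, 0, 0⟩ ⟨0, 0, 0, 0, 0, 0, 86148, 0, 0, 0, 0, 0, 0⟩ ⟨0, 0, 0, 0, 0, 0, 74665, 0, 0, 0, 0, 0, 0⟩ ⟨0, 0, 0, 0, 0, 0, 74665, 0, 0, 0, 0, 0, 0⟩ ⟨512, -2, -398, 78, 7, 79, 65883, 0, 0, 0, 0, 0, 0⟩)))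
    (.s0
    (.s1
    (.s2
    (.leaf (.box ⟨512, 2, 413, 19, -25, 306, 106736, 0, 0, 0, 0, 0, 0⟩ ⟨0, 0, 0, 0, 0, 0, 89559, 0, 0, 0, 0, 0, 0⟩ ⟨0, 0, 0, 0, 0, 0, 89559, 0, 0, 0, 0, 0, 0⟩ ⟨0, 0, 0, 0, 0, 0, 77144, 0, 0, 0, 0, 0, 0⟩ ⟨0, 0, 0, 0, 0, 0, 77144, 0, 0, 0, 0, 0, 0⟩ ⟨512, 4, 93, 29, -40, 302, 67752, 0, 0, 0, 0, 0, 0⟩))
    (.leaf (.box ⟨466, 1, 512, 11, -19, 168, 89845, 0, 0, 0, 0, 0, 0⟩ ⟨0, 0, 0, 0, 0, 0, 75235, 0, 0, 0, 0, 0, 0⟩ ⟨0, 0, 0, 0, 0, 0, 75235, 0, 0, 0, 0, 0, 0⟩ ⟨0, 0, 0, 0, 0, 0, 64712, 0, 0, 0, 0, 0, 0⟩ ⟨0, 0, 0, 0, 0, 0, 64712, 0, 0, 0, 0, 0, 0⟩ ⟨512, 3, 324, 22, -40, 212, 56771, 0, 0, 0, 0, 0, 0⟩)))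
    (.leaf (.box ⟨512, 1, 264, 9, -6, 126, 88218, 0, 0, 0, 0, 0, 0⟩ ⟨0, 0, 0, 0, 0, 0, 74266, 0, 0, 0, 0, 0, 0⟩ ⟨0, 0, 0, 0, 0, 0, 74266, 0, 0, 0, 0, 0, 0⟩ ⟨0, 0, 0, 0, 0, 0, 64124, 0, 0, 0, 0, 0, 0⟩ ⟨0, 0, 0, 0, 0, 0, 64124, 0, 0, 0, 0, 0, 0⟩ ⟨512, 3, 377, 21, -16, 208, 56419, 0, 0, 0, 0, 0, 0⟩)))
    (.leaf (.box ⟨512, 0, -91, 11, -1, 70, 105562, 0, 0, 0, 0, 0, 0⟩ ⟨0, 0, 0, 0, 0, 0, 89140, 0, 0, 0, 0, 0, 0⟩ ⟨0, 0, 0, 0, 0, 0, 89140, 0, 0, 0, 0, 0, 0⟩ ⟨0, 0, 0, 0, 0, 0, 77139, 0, 0, 0, 0, 0, 0⟩ ⟨0, 0, 0, 0, 0, 0, 77139, 0, 0, 0, 0, 0, 0⟩ ⟨512, 1, -118, 26, -3, 107, 67986, 0, 0, 0, 0, 0, 0⟩))))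
    (.s1
    (.s0
    (.leaf (.box ⟨211, 1, -512, 7, 3, 45, 475522, 0, 0, 0, 0, 0, 0⟩ ⟨224, 6, -512, 35, 15, 50, 105696, 0, 0, 0, 0, 0, 0⟩ ⟨224, 6, -512, 35, 15, 50, 105696, 0, 0, 0, 0, 0, 0⟩ ⟨251, 9, -512, 48, 20, 56, 93027, 0, 0, 0, 0, 0, 0⟩ ⟨251, 9, -512, 48, 20, 56, 93027, 0, 0, 0, 0, 0, 0⟩ ⟨259, 8, -512, 35, 15, 68, 161585, 0, 0, 0, 0, 0, 0⟩))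
    (.leaf (.box ⟨202, 2, -512, 7, 5, 59, 698992, 0, 0, 0, 0, 0, 0⟩ ⟨199, 12, -512, 36, 24, 62, 150430, 0, 0, 0, 0, 0, 0⟩ ⟨199, 12, -512, 36, 24, 62, 150430, 0, 0, 0, 0, 0, 0⟩ ⟨206, 21, -512, 50, 31, 67, 129699, 0, 0, 0, 0, 0, 0⟩ ⟨206, 21, -512, 50, 31, 67, 129699, 0, 0, 0, 0, 0, 0⟩ ⟨212, 19, -512, 35, 22, 75, 218655, 0, 0, 0, 0, 0, 0⟩)))
    (.s3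
    (.leaf (.box ⟨433, 1, -512, 32, 10, 63, 115856, 0, 0, 0, 0, 0, 0⟩ ⟨0, 0, 0, 0, 0, 0, 99007, 0, 0, 0, 0, 0, 0⟩ ⟨0, 0, 0, 0, 0, 0, 99007, 0, 0, 0, 0, 0, 0⟩ ⟨0, 0, 0, 0, 0, 0, 86437, 0, 0, 0, 0, 0, 0⟩ ⟨0, 0, 0, 0, 0, 0, 86437, 0, 0, 0, 0, 0, 0⟩ ⟨398, 3, -512, 69, 21, 89, 76698, 0, 0, 0, 0, 0, 0⟩))
    (.leaf (.box ⟨442, 0, -538, 6, 2, 62, 681956, 0, 0, 0, 0, 0, 0⟩ ⟨421, 1, -512, 39, 12, 65, 112320, 0, 0, 0, 0, 0, 0⟩ ⟨421, 1, -512, 39, 12, 65, 112320, 0, 0, 0, 0, 0, 0⟩ ⟨411, 2, -512, 48, 16, 72, 97296, 0, 0, 0, 0, 0, 0⟩ ⟨411, 2, -512, 48, 16, 72, 97296, 0, 0, 0, 0, 0, 0⟩ ⟨404, 1, -512, 33, 11, 83, 167489, 0, 0, 0, 0, 0, 0⟩))))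

/-- A piece of the tree. -/
noncomputable def tree1 : Tree LeafX :=
  .s2
    (.s2
    (.s3
    (.leaf (.box ⟨512, -1, -201, 8, -1, 48, 326600, 0, 0, 0, 0, 0, 0⟩ ⟨512, -3, -218, 39, -6, 54, 70291, 0, 0, 0, 0, 0, 0⟩ ⟨512, -3, -218, 39, -6, 54, 70291, 0, 0, 0, 0, 0, 0⟩ ⟨512, -4, -244, 50, -8, 63, 60920, 0, 0, 0, 0, 0, 0⟩ ⟨512, -4, -244, 50, -8, 63, 60920, 0, 0, 0, 0, 0, 0⟩ ⟨512, -2, -285, 34, -6, 77, 103980, 0, 0, 0, 0, 0, 0⟩))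
    (.leaf (.box ⟨512, 0, -208, 6, -1, 47, 403540, 0, 0, 0, 0, 0, 0⟩ ⟨512, -3, -222, 38, -6, 53, 74790, 0, 0, 0, 0, 0, 0⟩ ⟨512, -3, -222, 38, -6, 53, 74790, 0, 0, 0, 0, 0, 0⟩ ⟨512, -4, -236, 49, -7, 59, 64459, 0, 0, 0, 0, 0, 0⟩ ⟨512, -4, -236, 49, -7, 59, 64459, 0, 0, 0, 0, 0, 0⟩ ⟨512, -2, -280, 33, -5, 74, 109593, 0, 0, 0, 0, 0, 0⟩)))
    (.leaf (.box ⟨512, -1, -190, 8, -2, 44, 298325, 0, 0, 0, 0, 0, 0⟩ ⟨512, -4, -213, 37, -8, 49, 64162, 0, 0, 0, 0, 0, 0⟩ ⟨512, -4, -213, 37, -8, 49, 64162, 0, 0, 0, 0, 0, 0⟩ ⟨512, -5, -244, 48, -11, 57, 55569, 0, 0, 0, 0, 0, 0⟩ ⟨512, -5, -244, 48, -11, 57, 55569, 0, 0, 0, 0, 0, 0⟩ ⟨512, -3, -294, 32, -8, 69, 94760, 0, 0, 0, 0, 0, 0⟩)))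
    (.s0
    (.s0
    (.leaf (.box ⟨512, -4, 196, 20, -23, 71, 61378, 0, 0, 0, 0, 0, 0⟩ ⟨0, 0, 0, 0, 0, 0, 52266, 0, 0, 0, 0, 0, 0⟩ ⟨0, 0, 0, 0, 0, 0, 52266, 0, 0, 0, 0, 0, 0⟩ ⟨0, 0, 0, 0, 0, 0, 45510, 0, 0, 0, 0, 0, 0⟩ ⟨0, 0, 0, 0, 0, 0, 45510, 0, 0, 0, 0, 0, 0⟩ ⟨512, -7, -138, 40, -57, 120, 40300, 0, 0, 0, 0, 0, 0⟩))
    (.s1
    (.leaf (.box ⟨512, -4, -321, 20, -17, 83, 67273, 0, 0, 0, 0, 2278841313, 434171244⟩ ⟨0, 0, 0, 0, 0, 0, 57113, 0, 0, 0, 0, 0, 0⟩ ⟨0, 0, 0, 0, 0, 0, 57113, 0, 0, 0, 0, 0, 0⟩ ⟨0, 0, 0, 0, 0, 0, 49619, 0, 0, 0, 0, 0, 0⟩ ⟨0, 0, 0, 0, 0, 0, 49619, 0, 0, 0, 0, 0, 0⟩ ⟨409, -5, -512, 30, -31, 99, 43863, 0, 0, 0, 0, 1893543060, 1095066009⟩))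
    (.leaf (.box ⟨512, -2, 37, 9, -29, 98, 73455, 0, 0, 0, 0, 0, 0⟩ ⟨0, 0, 0, 0, 0, 0, 63928, 0, 0, 0, 0, 0, 0⟩ ⟨0, 0, 0, 0, 0, 0, 63928, 0, 0, 0, 0, 0, 0⟩ ⟨0, 0, 0, 0, 0, 0, 56588, 0, 0, 0, 0, 0, 0⟩ ⟨0, 0, 0, 0, 0, 0, 56588, 0, 0, 0, 0, 0, 0⟩ ⟨512, -3, -256, 14, -47, 115, 50760, 0, 0, 0, 0, 0, 0⟩))))
    (.s2
    (.leaf (.box ⟨512, -3, -455, 23, -5, 57, 82564, 0, 0, 0, 0, 0, 0⟩ ⟨0, 0, 0, 0, 0, 0, 70188, 0, 0, 0, 0, 0, 0⟩ ⟨0, 0, 0, 0, 0, 0, 70188, 0, 0, 0, 0, 0, 0⟩ ⟨0, 0, 0, 0, 0, 0, 61039, 0, 0, 0, 0, 0, 0⟩ ⟨0, 0, 0, 0, 0, 0, 61039, 0, 0, 0, 0, 0, 0⟩ ⟨469, -6, -512, 43, -11, 73, 53999, 0, 0, 0, 0, 0, 0⟩))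
    (.s1
    (.s0
    (.leaf (.box ⟨300, -3, -512, 13, -8, 61, 76297, 0, 0, 0, 2062969, 1580926851, 0⟩ ⟨0, 0, 0, 0, 0, 0, 65078, 0, 0, 0, 0, 0, 0⟩ ⟨0, 0, 0, 0, 0, 0, 65078, 0, 0, 0, 0, 0, 0⟩ ⟨0, 0, 0, 0, 0, 0, 56734, 0, 0, 0, 0, 0, 0⟩ ⟨0, 0, 0, 0, 0, 0, 56734, 0, 0, 0, 0, 0, 0⟩ ⟨204, -3, -512, 17, -12, 62, 50287, 0, 0, 0, 0, 0, 0⟩))
    (.leaf (.box ⟨150, -2, -512, 10, -1, 49, 93511, 0, 0, 0, 0, 690815624, 0⟩ ⟨0, 0, 0, 0, 0, 0, 80462, 0, 0, 0, 0, 0, 0⟩ ⟨0, 0, 0, 0, 0, 0, 80462, 0, 0, 0, 0, 0, 0⟩ ⟨0, 0, 0, 0, 0, 0, 70609, 0, 0, 0, 0, 0, 0⟩ ⟨0, 0, 0, 0, 0, 0, 70609, 0, 0, 0, 0, 0, 0⟩ ⟨105, -3, -512, 16, -3, 56, 62905, 0, 0, 0, 0, 0, 0⟩)))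
    (.leaf (.box ⟨512, -2, -500, 14, -16, 81, 83632, 0, 0, 0, 0, 3558510820, 0⟩ ⟨0, 0, 0, 0, 0, 0, 72484, 0, 0, 0, 0, 0, 0⟩ ⟨0, 0, 0, 0, 0, 0, 72484, 0, 0, 0, 0, 0, 0⟩ ⟨0, 0, 0, 0, 0, 0, 63958, 0, 0, 0, 0, 0, 0⟩ ⟨0, 0, 0, 0, 0, 0, 63958, 0, 0, 0, 0, 0, 0⟩ ⟨391, -3, -512, 17, -21, 75, 57226, 0, 0, 0, 0, 1459194992, 0⟩)))))

/-- A piece of the tree. -/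
noncomputable def tree2 : Tree LeafX :=
  .s0
    (.s1
    (.s0
    (.leaf (.box ⟨512, -2, 123, 15, -19, 83, 73858, 0, 0, 0, 0, 0, 0⟩ ⟨0, 0, 0, 0, 0, 0, 60588, 0, 0, 0, 0, 0, 0⟩ ⟨0, 0, 0, 0, 0, 0, 60588, 0, 0, 0, 0, 0, 0⟩ ⟨0, 0, 0, 0, 0, 0, 51360, 0, 0, 0, 0, 0, 0⟩ ⟨0, 0, 0, 0, 0, 0, 51360, 0, 0, 0, 0, 0, 0⟩ ⟨512, -4, -152, 32, -46, 126, 44571, 0, 0, 0, 0, 0, 0⟩))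
    (.leaf (.box ⟨512, -3, -280, 19, -12, 71, 78862, 0, 0, 0, 0, 2312499594, 152601688⟩ ⟨0, 0, 0, 0, 0, 0, 64903, 0, 0, 0, 0, 0, 0⟩ ⟨0, 0, 0, 0, 0, 0, 64903, 0, 0, 0, 0, 0, 0⟩ ⟨0, 0, 0, 0, 0, 0, 55142, 0, 0, 0, 0, 0, 0⟩ ⟨0, 0, 0, 0, 0, 0, 55142, 0, 0, 0, 0, 0, 0⟩ ⟨512, -5, -405, 34, -24, 89, 47933, 0, 0, 0, 0, 1703198312, 1297164109⟩)))
    (.s2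
    (.leaf (.box ⟨2435, 0, 1105, 6, -14, 372, 488470, 0, 0, 0, 0, 0, 0⟩ ⟨512, -1, 181, 10, -21, 84, 73872, 0, 0, 0, 0, 0, 0⟩ ⟨512, -1, 181, 10, -21, 84, 73872, 0, 0, 0, 0, 0, 0⟩ ⟨512, -1, 124, 13, -28, 95, 62808, 0, 0, 0, 0, 0, 0⟩ ⟨512, -1, 124, 13, -28, 95, 62808, 0, 0, 0, 0, 0, 0⟩ ⟨512, -1, 51, 8, -19, 112, 106874, 0, 0, 0, 0, 0, 0⟩))
    (.leaf (.box ⟨512, -2, 152, 9, -22, 66, 71123, 0, 0, 0, 0, 0, 0⟩ ⟨0, 0, 0, 0, 0, 0, 59299, 0, 0, 0, 0, 0, 0⟩ ⟨0, 0, 0, 0, 0, 0, 59299, 0, 0, 0, 0, 0, 0⟩ ⟨0, 0, 0, 0, 0, 0, 50845, 0, 0, 0, 0, 0, 0⟩ ⟨0, 0, 0, 0, 0, 0, 50845, 0, 0, 0, 0, 0, 0⟩ ⟨512, -3, -92, 16, -44, 85, 44501, 0, 0, 0, 0, 0, 0⟩))))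
    (.s1
    (.s0
    (.s2
    (.leaf (.box ⟨359, -1, -512, 12, -1, 55, 104262, 0, 0, 0, 0, 0, 0⟩ ⟨0, 0, 0, 0, 0, 0, 85717, 0, 0, 0, 0, 0, 0⟩ ⟨0, 0, 0, 0, 0, 0, 85717, 0, 0, 0, 0, 0, 0⟩ ⟨0, 0, 0, 0, 0, 0, 72772, 0, 0, 0, 0, 0, 0⟩ ⟨0, 0, 0, 0, 0, 0, 72772, 0, 0, 0, 0, 0, 0⟩ ⟨321, -2, -512, 25, -3, 73, 63224, 0, 0, 0, 0, 0, 0⟩))
    (.leaf (.box ⟨350, -2, -512, 13, -5, 56, 89405, 0, 0, 0, 0, 1478572906, 0⟩ ⟨0, 0, 0, 0, 0, 0, 73913, 0, 0, 0, 0, 0, 0⟩ ⟨0, 0, 0, 0, 0, 0, 73913, 0, 0, 0, 0, 0, 0⟩ ⟨0, 0, 0, 0, 0, 0, 62997, 0, 0, 0, 0, 0, 0⟩ ⟨0, 0, 0, 0, 0, 0, 62997, 0, 0, 0, 0, 0, 0⟩ ⟨277, -3, -512, 21, -10, 60, 54890, 0, 0, 0, 0, 0, 0⟩)))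
    (.s1
    (.s2
    (.leaf (.box ⟨120, 0, -522, 6, 4, 38, 124118, 0, 0, 0, 0, 0, 0⟩ ⟨0, 0, 0, 0, 0, 0, 101993, 0, 0, 0, 0, 0, 0⟩ ⟨0, 0, 0, 0, 0, 0, 101993, 0, 0, 0, 0, 0, 0⟩ ⟨0, 0, 0, 0, 0, 0, 86563, 0, 0, 0, 0, 0, 0⟩ ⟨0, 0, 0, 0, 0, 0, 86563, 0, 0, 0, 0, 0, 0⟩ ⟨136, 0, -512, 15, 9, 52, 75187, 0, 0, 0, 0, 0, 0⟩))
    (.leaf (.box ⟨112, -1, -512, 7, 1, 40, 109487, 0, 0, 0, 0, 500057453, 0⟩ ⟨0, 0, 0, 0, 0, 0, 91288, 0, 0, 0, 0, 0, 0⟩ ⟨0, 0, 0, 0, 0, 0, 91288, 0, 0, 0, 0, 0, 0⟩ ⟨0, 0, 0, 0, 0, 0, 78277, 0, 0, 0, 0, 0, 0⟩ ⟨0, 0, 0, 0, 0, 0, 78277, 0, 0, 0, 0, 0, 0⟩ ⟨99, -2, -512, 13, 2, 49, 68511, 0, 0, 0, 0, 0, 0⟩)))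
    (.leaf (.box ⟨149, -2, -512, 11, 0, 46, 113002, 0, 0, 0, 0, 853665772, 0⟩ ⟨0, 0, 0, 0, 0, 0, 95296, 0, 0, 0, 0, 0, 0⟩ ⟨0, 0, 0, 0, 0, 0, 95296, 0, 0, 0, 0, 0, 0⟩ ⟨0, 0, 0, 0, 0, 0, 82387, 0, 0, 0, 0, 0, 0⟩ ⟨0, 0, 0, 0, 0, 0, 82387, 0, 0, 0, 0, 0, 0⟩ ⟨190, -3, -512, 19, 0, 58, 72557, 0, 0, 0, 0, 0, 0⟩))))
    (.s0
    (.leaf (.box ⟨512, -3, -359, 17, -15, 95, 97760, 0, 0, 0, 0, 4712934318, 0⟩ ⟨0, 0, 0, 0, 0, 0, 82095, 0, 0, 0, 0, 0, 0⟩ ⟨0, 0, 0, 0, 0, 0, 82095, 0, 0, 0, 0, 0, 0⟩ ⟨0, 0, 0, 0, 0, 0, 70756, 0, 0, 0, 0, 0, 0⟩ ⟨0, 0, 0, 0, 0, 0, 70756, 0, 0, 0, 0, 0, 0⟩ ⟨512, -4, -426, 25, -25, 101, 62169, 0, 0, 0, 0, 0, 0⟩))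
    (.leaf (.box ⟨317, -2, -512, 13, -4, 63, 114207, 0, 0, 0, 0, 2150172440, 0⟩ ⟨0, 0, 0, 0, 0, 0, 95007, 0, 0, 0, 0, 0, 0⟩ ⟨0, 0, 0, 0, 0, 0, 95007, 0, 0, 0, 0, 0, 0⟩ ⟨0, 0, 0, 0, 0, 0, 81333, 0, 0, 0, 0, 0, 0⟩ ⟨0, 0, 0, 0, 0, 0, 81333, 0, 0, 0, 0, 0, 0⟩ ⟨323, -3, -512, 23, -8, 74, 71100, 0, 0, 0, 0, 1164445365, 0⟩))))

/-- A piece of the tree. -/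
noncomputable def tree3 : Tree LeafX :=
  .s0
    (.s2
    (.s0
    (.leaf (.box ⟨402, 0, 664, 6, -3, 118, 292762, 0, 0, 0, 0, 0, 0⟩ ⟨315, 2, 512, 23, -14, 102, 62411, 0, 0, 0, 0, 0, 0⟩ ⟨315, 2, 512, 23, -14, 102, 62411, 0, 0, 0, 0, 0, 0⟩ ⟨329, 2, 512, 30, -19, 117, 52980, 0, 0, 0, 0, 0, 0⟩ ⟨329, 2, 512, 30, -19, 117, 52980, 0, 0, 0, 0, 0, 0⟩ ⟨388, 2, 512, 23, -14, 138, 87938, 0, 0, 0, 0, 0, 0⟩))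
    (.leaf (.box ⟨405, 0, 512, 18, -15, 132, 86640, 0, 0, 0, 0, 0, 0⟩ ⟨0, 0, 0, 0, 0, 0, 73401, 0, 0, 0, 0, 0, 0⟩ ⟨0, 0, 0, 0, 0, 0, 73401, 0, 0, 0, 0, 0, 0⟩ ⟨0, 0, 0, 0, 0, 0, 63671, 0, 0, 0, 0, 0, 0⟩ ⟨0, 0, 0, 0, 0, 0, 63671, 0, 0, 0, 0, 0, 0⟩ ⟨512, 0, 390, 30, -25, 145, 56218, 0, 0, 0, 0, 0, 0⟩)))
    (.s2
    (.leaf (.box ⟨508, -1, 512, 27, -16, 98, 66137, 0, 0, 0, 0, 0, 0⟩ ⟨0, 0, 0, 0, 0, 0, 55636, 0, 0, 0, 0, 0, 0⟩ ⟨0, 0, 0, 0, 0, 0, 55636, 0, 0, 0, 0, 0, 0⟩ ⟨0, 0, 0, 0, 0, 0, 48013, 0, 0, 0, 0, 0, 0⟩ ⟨0, 0, 0, 0, 0, 0, 48013, 0, 0, 0, 0, 0, 0⟩ ⟨512, -2, 330, 43, -25, 99, 42226, 0, 0, 0, 0, 0, 0⟩))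
    (.leaf (.box ⟨512, -1, 334, 7, -4, 68, 232443, 0, 0, 0, 0, 0, 0⟩ ⟨512, -3, 290, 31, -16, 68, 50056, 0, 0, 0, 0, 0, 0⟩ ⟨512, -3, 290, 31, -16, 68, 50056, 0, 0, 0, 0, 0, 0⟩ ⟨512, -4, 246, 36, -19, 69, 43373, 0, 0, 0, 0, 0, 0⟩ ⟨512, -4, 246, 36, -19, 69, 43373, 0, 0, 0, 0, 0, 0⟩ ⟨512, -2, 196, 22, -11, 68, 74009, 0, 0, 0, 0, 0, 0⟩))))
    (.s2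
    (.leaf (.box ⟨512, 0, -53, 10, -5, 67, 94015, 0, 0, 0, 0, 0, 0⟩ ⟨0, 0, 0, 0, 0, 0, 79723, 0, 0, 0, 0, 0, 0⟩ ⟨0, 0, 0, 0, 0, 0, 79723, 0, 0, 0, 0, 0, 0⟩ ⟨0, 0, 0, 0, 0, 0, 69203, 0, 0, 0, 0, 0, 0⟩ ⟨0, 0, 0, 0, 0, 0, 69203, 0, 0, 0, 0, 0, 0⟩ ⟨512, 0, -86, 18, -10, 85, 61135, 0, 0, 0, 0, 0, 0⟩))
    (.s1
    (.leaf (.box ⟨512, 0, -259, 13, -14, 84, 85536, 0, 0, 0, 0, 0, 0⟩ ⟨0, 0, 0, 0, 0, 0, 73194, 0, 0, 0, 0, 0, 0⟩ ⟨0, 0, 0, 0, 0, 0, 73194, 0, 0, 0, 0, 0, 0⟩ ⟨0, 0, 0, 0, 0, 0, 63964, 0, 0, 0, 0, 0, 0⟩ ⟨0, 0, 0, 0, 0, 0, 63964, 0, 0, 0, 0, 0, 0⟩ ⟨512, 0, -305, 19, -22, 84, 56801, 0, 0, 0, 0, 2502855853, 0⟩))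
    (.leaf (.box ⟨512, 0, -111, 12, -8, 95, 86009, 0, 0, 0, 0, 0, 0⟩ ⟨0, 0, 0, 0, 0, 0, 73472, 0, 0, 0, 0, 0, 0⟩ ⟨0, 0, 0, 0, 0, 0, 73472, 0, 0, 0, 0, 0, 0⟩ ⟨0, 0, 0, 0, 0, 0, 64124, 0, 0, 0, 0, 0, 0⟩ ⟨0, 0, 0, 0, 0, 0, 64124, 0, 0, 0, 0, 0, 0⟩ ⟨512, 0, -90, 16, -12, 89, 56886, 0, 0, 0, 0, 0, 0⟩))))

/-- A piece of the tree. -/
noncomputable def tree4 : Tree LeafX :=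
  .s0
    (.s1
    (.leaf (.box ⟨206, 0, -732, 6, 3, 60, 468447, 0, 0, 0, 0, 0, 3181750194⟩ ⟨140, 1, -512, 19, 11, 45, 107695, 0, 0, 0, 0, 0, 0⟩ ⟨140, 1, -512, 19, 11, 45, 107695, 0, 0, 0, 0, 0, 0⟩ ⟨146, 2, -512, 24, 14, 50, 96017, 0, 0, 0, 0, 0, 0⟩ ⟨146, 2, -512, 24, 14, 50, 96017, 0, 0, 0, 0, 0, 0⟩ ⟨162, 1, -512, 18, 9, 57, 165996, 0, 0, 0, 0, 0, 0⟩))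
    (.leaf (.box ⟨184, -1, -512, 15, 4, 48, 117900, 0, 0, 0, 0, 0, 0⟩ ⟨0, 0, 0, 0, 0, 0, 100888, 0, 0, 0, 0, 0, 0⟩ ⟨0, 0, 0, 0, 0, 0, 100888, 0, 0, 0, 0, 0, 0⟩ ⟨0, 0, 0, 0, 0, 0, 88165, 0, 0, 0, 0, 0, 0⟩ ⟨0, 0, 0, 0, 0, 0, 88165, 0, 0, 0, 0, 0, 0⟩ ⟨186, -1, -512, 29, 9, 65, 78292, 0, 0, 0, 0, 0, 0⟩)))
    (.s0
    (.s1
    (.leaf (.box ⟨237, 1, -1181, 6, 7, 115, 771478, 0, 0, 0, 0, 0, 8656940731⟩ ⟨105, 2, -512, 13, 15, 53, 171724, 0, 0, 0, 0, 0, 0⟩ ⟨105, 2, -512, 13, 15, 53, 171724, 0, 0, 0, 0, 0, 0⟩ ⟨117, 3, -512, 18, 19, 58, 147276, 0, 0, 0, 0, 0, 0⟩ ⟨117, 3, -512, 18, 19, 58, 147276, 0, 0, 0, 0, 0, 0⟩ ⟨150, 2, -512, 13, 14, 65, 241613, 0, 0, 0, 0, 0, 0⟩))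
    (.leaf (.box ⟨100, 0, -512, 9, 8, 52, 177281, 0, 0, 0, 0, 0, 0⟩ ⟨0, 0, 0, 0, 0, 0, 150246, 0, 0, 0, 0, 0, 0⟩ ⟨0, 0, 0, 0, 0, 0, 150246, 0, 0, 0, 0, 0, 0⟩ ⟨0, 0, 0, 0, 0, 0, 130365, 0, 0, 0, 0, 0, 0⟩ ⟨0, 0, 0, 0, 0, 0, 130365, 0, 0, 0, 0, 0, 0⟩ ⟨94, 1, -512, 19, 15, 66, 115130, 0, 0, 0, 0, 0, 0⟩)))
    (.s1
    (.leaf (.box ⟨220, 1, -1021, 6, 7, 120, 1026010, 0, 0, 0, 0, 0, 5786850316⟩ ⟨123, 3, -512, 15, 18, 64, 221935, 0, 0, 0, 0, 0, 0⟩ ⟨123, 3, -512, 15, 18, 64, 221935, 0, 0, 0, 0, 0, 0⟩ ⟨158, 5, -512, 20, 24, 70, 187019, 0, 0, 0, 0, 0, 0⟩ ⟨158, 5, -512, 20, 24, 70, 187019, 0, 0, 0, 0, 0, 0⟩ ⟨226, 5, -512, 17, 18, 79, 294853, 0, 0, 0, 0, 0, 0⟩))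
    (.leaf (.box ⟨238, 1, -1140, 6, 5, 137, 899534, 0, 0, 0, 0, 0, 0⟩ ⟨107, 1, -512, 12, 12, 65, 192300, 0, 0, 0, 0, 0, 0⟩ ⟨107, 1, -512, 12, 12, 65, 192300, 0, 0, 0, 0, 0, 0⟩ ⟨122, 2, -512, 15, 15, 69, 163437, 0, 0, 0, 0, 0, 0⟩ ⟨122, 2, -512, 15, 15, 69, 163437, 0, 0, 0, 0, 0, 0⟩ ⟨141, 1, -512, 11, 10, 75, 271722, 0, 0, 0, 0, 0, 0⟩))))

/-- A piece of the tree. -/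
noncomputable def tree5 : Tree LeafX :=
  .s0
    (.s1
    (.s1
    (.leaf (.box ⟨143, -1, -512, 10, 8, 43, 126236, 0, 0, 0, 0, 0, 2261179159⟩ ⟨0, 0, 0, 0, 0, 0, 108287, 0, 0, 0, 0, 0, 0⟩ ⟨0, 0, 0, 0, 0, 0, 108287, 0, 0, 0, 0, 0, 0⟩ ⟨0, 0, 0, 0, 0, 0, 94806, 0, 0, 0, 0, 0, 0⟩ ⟨0, 0, 0, 0, 0, 0, 94806, 0, 0, 0, 0, 0, 0⟩ ⟨154, -1, -512, 19, 16, 56, 84310, 0, 0, 0, 0, 0, 0⟩))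
    (.leaf (.box ⟨118, -1, -512, 10, 5, 46, 122675, 0, 0, 0, 0, 0, 0⟩ ⟨0, 0, 0, 0, 0, 0, 106138, 0, 0, 0, 0, 0, 0⟩ ⟨0, 0, 0, 0, 0, 0, 106138, 0, 0, 0, 0, 0, 0⟩ ⟨0, 0, 0, 0, 0, 0, 93530, 0, 0, 0, 0, 0, 0⟩ ⟨0, 0, 0, 0, 0, 0, 93530, 0, 0, 0, 0, 0, 0⟩ ⟨116, -2, -512, 18, 9, 58, 83599, 0, 0, 0, 0, 0, 0⟩)))
    (.leaf (.box ⟨156, -1, -512, 12, 1, 51, 116799, 0, 0, 0, 0, 0, 0⟩ ⟨0, 0, 0, 0, 0, 0, 99979, 0, 0, 0, 0, 0, 0⟩ ⟨0, 0, 0, 0, 0, 0, 99979, 0, 0, 0, 0, 0, 0⟩ ⟨0, 0, 0, 0, 0, 0, 87394, 0, 0, 0, 0, 0, 0⟩ ⟨0, 0, 0, 0, 0, 0, 87394, 0, 0, 0, 0, 0, 0⟩ ⟨129, -2, -512, 20, 2, 62, 77622, 0, 0, 0, 0, 0, 0⟩)))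
    (.s0
    (.s1
    (.s1
    (.leaf (.skip 0 8))
    (.leaf (.box ⟨357, 0, -1528, 6, 7, 160, 725010, 0, 0, 0, 0, 0, 5090965480⟩ ⟨124, -1, -512, 9, 10, 58, 171491, 0, 0, 0, 0, 0, 0⟩ ⟨124, -1, -512, 9, 10, 58, 171491, 0, 0, 0, 0, 0, 0⟩ ⟨132, -1, -512, 10, 13, 63, 151156, 0, 0, 0, 0, 0, 0⟩ ⟨132, -1, -512, 10, 13, 63, 151156, 0, 0, 0, 0, 0, 0⟩ ⟨146, 0, -514, 6, 8, 70, 262480, 0, 0, 0, 0, 0, 0⟩)))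
    (.leaf (.box ⟨118, -1, -512, 8, 5, 56, 178617, 0, 0, 0, 0, 0, 0⟩ ⟨0, 0, 0, 0, 0, 0, 152812, 0, 0, 0, 0, 0, 0⟩ ⟨0, 0, 0, 0, 0, 0, 152812, 0, 0, 0, 0, 0, 0⟩ ⟨0, 0, 0, 0, 0, 0, 133521, 0, 0, 0, 0, 0, 0⟩ ⟨0, 0, 0, 0, 0, 0, 133521, 0, 0, 0, 0, 0, 0⟩ ⟨115, -1, -512, 14, 9, 68, 118555, 0, 0, 0, 0, 0, 0⟩)))
    (.s0
    (.s1
    (.s1
    (.leaf (.skip 0 8))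
    (.leaf (.box ⟨368, 0, -1930, 6, 10, 234, 932665, 0, 0, 0, 0, 0, 7584644419⟩ ⟨127, 0, -563, 6, 13, 74, 220199, 0, 0, 0, 0, 0, 0⟩ ⟨127, 0, -563, 6, 13, 74, 220199, 0, 0, 0, 0, 0, 0⟩ ⟨132, 0, -512, 8, 14, 73, 193309, 0, 0, 0, 0, 0, 0⟩ ⟨132, 0, -512, 8, 14, 73, 193309, 0, 0, 0, 0, 0, 0⟩ ⟨171, 0, -576, 6, 10, 91, 332151, 0, 0, 0, 0, 0, 0⟩)))
    (.s1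
    (.leaf (.box ⟨131, 0, -738, 6, 10, 91, 244111, 0, 0, 0, 0, 0, 0⟩ ⟨0, 0, 0, 0, 0, 0, 208287, 0, 0, 0, 0, 0, 0⟩ ⟨0, 0, 0, 0, 0, 0, 208287, 0, 0, 0, 0, 0, 0⟩ ⟨0, 0, 0, 0, 0, 0, 181631, 0, 0, 0, 0, 0, 0⟩ ⟨0, 0, 0, 0, 0, 0, 181631, 0, 0, 0, 0, 0, 0⟩ ⟨120, -1, -512, 10, 12, 77, 161024, 0, 0, 0, 0, 0, 0⟩))
    (.leaf (.box ⟨149, 0, -831, 6, 8, 104, 230500, 0, 0, 0, 0, 0, 0⟩ ⟨0, 0, 0, 0, 0, 0, 196719, 0, 0, 0, 0, 0, 0⟩ ⟨0, 0, 0, 0, 0, 0, 196719, 0, 0, 0, 0, 0, 0⟩ ⟨0, 0, 0, 0, 0, 0, 171574, 0, 0, 0, 0, 0, 0⟩ ⟨0, 0, 0, 0, 0, 0, 171574, 0, 0, 0, 0, 0, 0⟩ ⟨84, 0, -512, 7, 8, 75, 152128, 0, 0, 0, 0, 0, 0⟩))))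
    (.s1
    (.leaf (.box ⟨309, 0, -1289, 6, 8, 176, 1057726, 0, 0, 0, 0, 0, 1638554548⟩ ⟨160, 0, -512, 11, 15, 76, 248307, 0, 0, 0, 0, 0, 0⟩ ⟨160, 0, -512, 11, 15, 76, 248307, 0, 0, 0, 0, 0, 0⟩ ⟨205, 0, -512, 15, 19, 85, 217918, 0, 0, 0, 0, 0, 0⟩ ⟨205, 0, -512, 15, 19, 85, 217918, 0, 0, 0, 0, 0, 0⟩ ⟨269, 0, -512, 11, 13, 97, 370948, 0, 0, 0, 0, 0, 0⟩))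
    (.s1
    (.leaf (.box ⟨555, 0, -2714, 6, 11, 378, 1030591, 0, 0, 0, 0, 0, 0⟩ ⟨120, 0, -522, 6, 9, 77, 236804, 0, 0, 0, 0, 0, 0⟩ ⟨120, 0, -522, 6, 9, 77, 236804, 0, 0, 0, 0, 0, 0⟩ ⟨125, 0, -512, 8, 11, 81, 206342, 0, 0, 0, 0, 0, 0⟩ ⟨125, 0, -512, 8, 11, 81, 206342, 0, 0, 0, 0, 0, 0⟩ ⟨174, 0, -640, 6, 9, 109, 354670, 0, 0, 0, 0, 0, 0⟩))
    (.leaf (.box ⟨130, 0, -694, 6, 7, 97, 262995, 0, 0, 0, 0, 0, 0⟩ ⟨0, 0, 0, 0, 0, 0, 223991, 0, 0, 0, 0, 0, 0⟩ ⟨0, 0, 0, 0, 0, 0, 223991, 0, 0, 0, 0, 0, 0⟩ ⟨0, 0, 0, 0, 0, 0, 195061, 0, 0, 0, 0, 0, 0⟩ ⟨0, 0, 0, 0, 0, 0, 195061, 0, 0, 0, 0, 0, 0⟩ ⟨104, 0, -512, 7, 9, 82, 172749, 0, 0, 0, 0, 0, 0⟩))))))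

/-- A piece of the tree. -/
noncomputable def tree6 : Tree LeafX :=
  .s2
    (.s0
    (.leaf (.box ⟨215, -2, -512, 15, 3, 50, 116695, 0, 0, 0, 0, 0, 72208006⟩ ⟨0, 0, 0, 0, 0, 0, 99897, 0, 0, 0, 0, 0, 0⟩ ⟨0, 0, 0, 0, 0, 0, 99897, 0, 0, 0, 0, 0, 0⟩ ⟨0, 0, 0, 0, 0, 0, 87326, 0, 0, 0, 0, 0, 0⟩ ⟨0, 0, 0, 0, 0, 0, 87326, 0, 0, 0, 0, 0, 0⟩ ⟨186, -4, -512, 27, 4, 60, 77565, 0, 0, 0, 0, 0, 0⟩))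
    (.s1
    (.leaf (.box ⟨409, -1, -820, 6, 5, 107, 705819, 0, 0, 0, 0, 0, 0⟩ ⟨266, -2, -512, 15, 14, 73, 171371, 0, 0, 0, 0, 0, 0⟩ ⟨266, -2, -512, 15, 14, 73, 171371, 0, 0, 0, 0, 0, 0⟩ ⟨308, -3, -512, 19, 16, 80, 154552, 0, 0, 0, 0, 0, 0⟩ ⟨308, -3, -512, 19, 16, 80, 154552, 0, 0, 0, 0, 0, 0⟩ ⟨368, -2, -512, 12, 10, 88, 275058, 0, 0, 0, 0, 0, 0⟩))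
    (.leaf (.box ⟨200, -1, -512, 7, 5, 68, 182250, 0, 0, 0, 0, 0, 0⟩ ⟨0, 0, 0, 0, 0, 0, 156611, 0, 0, 0, 0, 0, 0⟩ ⟨0, 0, 0, 0, 0, 0, 156611, 0, 0, 0, 0, 0, 0⟩ ⟨0, 0, 0, 0, 0, 0, 137296, 0, 0, 0, 0, 0, 0⟩ ⟨0, 0, 0, 0, 0, 0, 137296, 0, 0, 0, 0, 0, 0⟩ ⟨208, -1, -512, 11, 7, 78, 122222, 0, 0, 0, 0, 0, 0⟩))))
    (.s0
    (.s1
    (.s0
    (.leaf (.box ⟨146, -2, -512, 8, 2, 47, 120800, 0, 0, 0, 0, 862671481, 0⟩ ⟨0, 0, 0, 0, 0, 0, 104839, 0, 0, 0, 0, 0, 0⟩ ⟨0, 0, 0, 0, 0, 0, 104839, 0, 0, 0, 0, 0, 0⟩ ⟨0, 0, 0, 0, 0, 0, 92603, 0, 0, 0, 0, 0, 0⟩ ⟨0, 0, 0, 0, 0, 0, 92603, 0, 0, 0, 0, 0, 0⟩ ⟨125, -2, -512, 12, 3, 56, 82924, 0, 0, 0, 0, 0, 0⟩))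
    (.leaf (.box ⟨152, -2, -512, 8, 5, 52, 153755, 0, 0, 0, 0, 919316177, 0⟩ ⟨0, 0, 0, 0, 0, 0, 133939, 0, 0, 0, 0, 0, 0⟩ ⟨0, 0, 0, 0, 0, 0, 133939, 0, 0, 0, 0, 0, 0⟩ ⟨0, 0, 0, 0, 0, 0, 118648, 0, 0, 0, 0, 0, 0⟩ ⟨0, 0, 0, 0, 0, 0, 118648, 0, 0, 0, 0, 0, 0⟩ ⟨164, -3, -512, 13, 8, 65, 106490, 0, 0, 0, 0, 0, 0⟩)))
    (.leaf (.box ⟨123, -2, -512, 10, -2, 56, 116705, 0, 0, 0, 0, 1623078813, 0⟩ ⟨0, 0, 0, 0, 0, 0, 99908, 0, 0, 0, 0, 0, 0⟩ ⟨0, 0, 0, 0, 0, 0, 99908, 0, 0, 0, 0, 0, 0⟩ ⟨0, 0, 0, 0, 0, 0, 87338, 0, 0, 0, 0, 0, 0⟩ ⟨0, 0, 0, 0, 0, 0, 87338, 0, 0, 0, 0, 0, 0⟩ ⟨99, -2, -512, 15, -4, 61, 77577, 0, 0, 0, 0, 1115296094, 0⟩)))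
    (.s1
    (.leaf (.box ⟨361, -4, -512, 14, 9, 77, 197159, 0, 0, 0, 0, 2676299426, 0⟩ ⟨0, 0, 0, 0, 0, 0, 172182, 0, 0, 0, 0, 0, 0⟩ ⟨0, 0, 0, 0, 0, 0, 172182, 0, 0, 0, 0, 0, 0⟩ ⟨0, 0, 0, 0, 0, 0, 152821, 0, 0, 0, 0, 0, 0⟩ ⟨0, 0, 0, 0, 0, 0, 152821, 0, 0, 0, 0, 0, 0⟩ ⟨419, -5, -512, 21, 15, 96, 137374, 0, 0, 0, 0, 0, 0⟩))
    (.leaf (.box ⟨247, -1, -521, 6, 3, 76, 184863, 0, 0, 0, 0, 2403507704, 0⟩ ⟨0, 0, 0, 0, 0, 0, 159176, 0, 0, 0, 0, 0, 0⟩ ⟨0, 0, 0, 0, 0, 0, 159176, 0, 0, 0, 0, 0, 0⟩ ⟨0, 0, 0, 0, 0, 0, 139757, 0, 0, 0, 0, 0, 0⟩ ⟨0, 0, 0, 0, 0, 0, 139757, 0, 0, 0, 0, 0, 0⟩ ⟨233, -2, -512, 10, 4, 80, 124560, 0, 0, 0, 0, 1446652400, 0⟩))))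

/-- A piece of the tree. -/
noncomputable def tree7 : Tree LeafX :=
  .s0
    (.s2
    (.leaf (.box ⟨419, -1, -512, 15, 1, 65, 109724, 0, 0, 0, 0, 0, 0⟩ ⟨0, 0, 0, 0, 0, 0, 93306, 0, 0, 0, 0, 0, 0⟩ ⟨0, 0, 0, 0, 0, 0, 93306, 0, 0, 0, 0, 0, 0⟩ ⟨0, 0, 0, 0, 0, 0, 81162, 0, 0, 0, 0, 0, 0⟩ ⟨0, 0, 0, 0, 0, 0, 81162, 0, 0, 0, 0, 0, 0⟩ ⟨371, -2, -512, 28, 2, 83, 71814, 0, 0, 0, 0, 0, 0⟩))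
    (.leaf (.box ⟨327, 0, -512, 11, -3, 65, 108506, 0, 0, 0, 0, 1390576158, 0⟩ ⟨0, 0, 0, 0, 0, 0, 91248, 0, 0, 0, 0, 0, 0⟩ ⟨0, 0, 0, 0, 0, 0, 91248, 0, 0, 0, 0, 0, 0⟩ ⟨0, 0, 0, 0, 0, 0, 78726, 0, 0, 0, 0, 0, 0⟩ ⟨0, 0, 0, 0, 0, 0, 78726, 0, 0, 0, 0, 0, 0⟩ ⟨314, 0, -512, 17, -5, 69, 69226, 0, 0, 0, 0, 1243232131, 0⟩)))
    (.s2
    (.leaf (.box ⟨163, -1, -512, 14, 6, 61, 144690, 0, 0, 0, 0, 0, 0⟩ ⟨0, 0, 0, 0, 0, 0, 125554, 0, 0, 0, 0, 0, 0⟩ ⟨0, 0, 0, 0, 0, 0, 125554, 0, 0, 0, 0, 0, 0⟩ ⟨0, 0, 0, 0, 0, 0, 110888, 0, 0, 0, 0, 0, 0⟩ ⟨0, 0, 0, 0, 0, 0, 110888, 0, 0, 0, 0, 0, 0⟩ ⟨101, -1, -512, 24, 9, 73, 99289, 0, 0, 0, 0, 0, 0⟩))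
    (.s2
    (.leaf (.box ⟨153, 0, -512, 7, 3, 65, 156567, 0, 0, 0, 0, 0, 0⟩ ⟨0, 0, 0, 0, 0, 0, 134473, 0, 0, 0, 0, 0, 0⟩ ⟨0, 0, 0, 0, 0, 0, 134473, 0, 0, 0, 0, 0, 0⟩ ⟨0, 0, 0, 0, 0, 0, 117843, 0, 0, 0, 0, 0, 0⟩ ⟨0, 0, 0, 0, 0, 0, 117843, 0, 0, 0, 0, 0, 0⟩ ⟨113, -1, -512, 13, 4, 72, 104873, 0, 0, 0, 0, 0, 0⟩))
    (.leaf (.box ⟨187, 0, -544, 6, 1, 73, 167874, 0, 0, 0, 0, 931002707, 0⟩ ⟨0, 0, 0, 0, 0, 0, 142824, 0, 0, 0, 0, 0, 0⟩ ⟨0, 0, 0, 0, 0, 0, 142824, 0, 0, 0, 0, 0, 0⟩ ⟨0, 0, 0, 0, 0, 0, 124278, 0, 0, 0, 0, 0, 0⟩ ⟨0, 0, 0, 0, 0, 0, 124278, 0, 0, 0, 0, 0, 0⟩ ⟨143, 0, -512, 9, 1, 71, 109995, 0, 0, 0, 0, 922538445, 0⟩))))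

/-- A piece of the tree. -/
noncomputable def tree8 : Tree LeafX :=
  .s1
    (.s0
    (.s2
    (.leaf (.box ⟨512, -2, 99, 10, 0, 88, 91844, 0, 0, 0, 0, 0, 0⟩ ⟨0, 0, 0, 0, 0, 0, 79924, 0, 0, 0, 0, 0, 0⟩ ⟨0, 0, 0, 0, 0, 0, 79924, 0, 0, 0, 0, 0, 0⟩ ⟨0, 0, 0, 0, 0, 0, 70743, 0, 0, 0, 0, 0, 0⟩ ⟨0, 0, 0, 0, 0, 0, 70743, 0, 0, 0, 0, 0, 0⟩ ⟨512, -4, 307, 23, -2, 167, 63453, 0, 0, 0, 0, 0, 0⟩))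
    (.leaf (.box ⟨512, -3, 275, 9, 0, 74, 86531, 0, 0, 0, 0, 0, 0⟩ ⟨0, 0, 0, 0, 0, 0, 73994, 0, 0, 0, 0, 0, 0⟩ ⟨0, 0, 0, 0, 0, 0, 73994, 0, 0, 0, 0, 0, 0⟩ ⟨0, 0, 0, 0, 0, 0, 64630, 0, 0, 0, 0, 0, 0⟩ ⟨0, 0, 0, 0, 0, 0, 64630, 0, 0, 0, 0, 0, 0⟩ ⟨512, -8, 493, 25, 0, 159, 57369, 0, 0, 0, 0, 0, 0⟩)))
    (.leaf (.box ⟨512, -6, 43, 19, 3, 126, 105115, 0, 0, 0, 0, 0, 0⟩ ⟨0, 0, 0, 0, 0, 0, 90275, 0, 0, 0, 0, 0, 0⟩ ⟨0, 0, 0, 0, 0, 0, 90275, 0, 0, 0, 0, 0, 0⟩ ⟨0, 0, 0, 0, 0, 0, 79106, 0, 0, 0, 0, 0, 0⟩ ⟨0, 0, 0, 0, 0, 0, 79106, 0, 0, 0, 0, 0, 0⟩ ⟨512, -10, 69, 36, 7, 185, 70396, 0, 0, 0, 0, 0, 0⟩)))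
    (.s0
    (.s2
    (.s1
    (.s0
    (.leaf (.box ⟨512, -10, 319, 16, 5, 85, 90938, 0, 0, 0, 0, 0, 0⟩ ⟨0, 0, 0, 0, 0, 0, 80095, 0, 0, 0, 0, 0, 0⟩ ⟨0, 0, 0, 0, 0, 0, 80095, 0, 0, 0, 0, 0, 0⟩ ⟨0, 0, 0, 0, 0, 0, 71562, 0, 0, 0, 0, 0, 0⟩ ⟨0, 0, 0, 0, 0, 0, 71562, 0, 0, 0, 0, 0, 0⟩ ⟨512, -15, 431, 30, 11, 124, 64672, 0, 0, 0, 0, 0, 0⟩))
    (.leaf (.box ⟨512, -14, 126, 21, 14, 142, 102496, 0, 0, 0, 0, 0, 0⟩ ⟨0, 0, 0, 0, 0, 0, 90605, 0, 0, 0, 0, 0, 0⟩ ⟨0, 0, 0, 0, 0, 0, 90605, 0, 0, 0, 0, 0, 0⟩ ⟨0, 0, 0, 0, 0, 0, 81186, 0, 0, 0, 0, 0, 0⟩ ⟨0, 0, 0, 0, 0, 0, 81186, 0, 0, 0, 0, 0, 0⟩ ⟨512, -20, 340, 40, 29, 222, 73540, 0, 0, 0, 0, 0, 0⟩)))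
    (.s1
    (.leaf (.box ⟨512, -8, 220, 15, 16, 70, 96488, 0, 0, 0, 0, 0, 0⟩ ⟨0, 0, 0, 0, 0, 0, 82740, 0, 0, 0, 0, 0, 0⟩ ⟨0, 0, 0, 0, 0, 0, 82740, 0, 0, 0, 0, 0, 0⟩ ⟨0, 0, 0, 0, 0, 0, 72421, 0, 0, 0, 0, 0, 0⟩ ⟨0, 0, 0, 0, 0, 0, 72421, 0, 0, 0, 0, 0, 0⟩ ⟨512, -9, 222, 21, 24, 69, 64390, 0, 0, 0, 0, 0, 0⟩))
    (.leaf (.box ⟨512, -6, 272, 27, 29, 73, 105444, 0, 0, 0, 0, 0, 0⟩ ⟨0, 0, 0, 0, 0, 0, 85319, 0, 0, 0, 0, 0, 0⟩ ⟨0, 0, 0, 0, 0, 0, 85319, 0, 0, 0, 0, 0, 0⟩ ⟨0, 0, 0, 0, 0, 0, 71644, 0, 0, 0, 0, 0, 0⟩ ⟨0, 0, 0, 0, 0, 0, 71644, 0, 0, 0, 0, 0, 0⟩ ⟨512, -6, 177, 31, 27, 40, 61747, 0, 0, 0, 0, 0, 0⟩))))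
    (.s0
    (.s1
    (.leaf (.box ⟨462, -10, 512, 12, 2, 71, 86422, 0, 0, 0, 0, 0, 0⟩ ⟨0, 0, 0, 0, 0, 0, 77156, 0, 0, 0, 0, 0, 0⟩ ⟨0, 0, 0, 0, 0, 0, 77156, 0, 0, 0, 0, 0, 0⟩ ⟨0, 0, 0, 0, 0, 0, 69685, 0, 0, 0, 0, 0, 0⟩ ⟨0, 0, 0, 0, 0, 0, 69685, 0, 0, 0, 0, 0, 0⟩ ⟨461, -12, 512, 19, 8, 101, 63532, 0, 0, 0, 0, 0, 0⟩))
    (.s3
    (.leaf (.box ⟨277, -4, 512, 10, 4, 56, 304673, 0, 0, 0, 0, 0, 0⟩ ⟨396, -15, 512, 36, 17, 58, 82467, 0, 0, 0, 0, 0, 0⟩ ⟨396, -15, 512, 36, 17, 58, 82467, 0, 0, 0, 0, 0, 0⟩ ⟨512, -16, 497, 42, 19, 57, 72390, 0, 0, 0, 0, 0, 0⟩ ⟨512, -16, 497, 42, 19, 57, 72390, 0, 0, 0, 0, 0, 0⟩ ⟨512, -8, 401, 22, 10, 46, 112365, 0, 0, 0, 0, 0, 0⟩))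
    (.leaf (.box ⟨317, -11, 512, 25, 8, 56, 114198, 0, 0, 0, 0, 0, 0⟩ ⟨0, 0, 0, 0, 0, 0, 93120, 0, 0, 0, 0, 0, 0⟩ ⟨0, 0, 0, 0, 0, 0, 93120, 0, 0, 0, 0, 0, 0⟩ ⟨0, 0, 0, 0, 0, 0, 78611, 0, 0, 0, 0, 0, 0⟩ ⟨0, 0, 0, 0, 0, 0, 78611, 0, 0, 0, 0, 0, 0⟩ ⟨512, -14, 411, 37, 12, 48, 68013, 0, 0, 0, 0, 0, 0⟩))))
    (.leaf (.box ⟨512, -43, 437, 46, 9, 97, 100068, 0, 0, 2743046523, 0, 0, 0⟩ ⟨0, 0, 0, 0, 0, 0, 87675, 0, 0, 0, 0, 0, 0⟩ ⟨0, 0, 0, 0, 0, 0, 87675, 0, 0, 0, 0, 0, 0⟩ ⟨0, 0, 0, 0, 0, 0, 78013, 0, 0, 0, 0, 0, 0⟩ ⟨0, 0, 0, 0, 0, 0, 78013, 0, 0, 0, 0, 0, 0⟩ ⟨512, -34, 311, 51, 13, 84, 70269, 0, 0, 0, 0, 0, 0⟩))))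
    (.s1
    (.s2
    (.leaf (.box ⟨512, -21, -179, 28, 21, 165, 109010, 0, 0, 0, 0, 0, 0⟩ ⟨0, 0, 0, 0, 0, 0, 97387, 0, 0, 0, 0, 0, 0⟩ ⟨0, 0, 0, 0, 0, 0, 97387, 0, 0, 0, 0, 0, 0⟩ ⟨0, 0, 0, 0, 0, 0, 88004, 0, 0, 0, 0, 0, 0⟩ ⟨0, 0, 0, 0, 0, 0, 88004, 0, 0, 0, 0, 0, 0⟩ ⟨512, -27, -86, 48, 40, 251, 80269, 0, 0, 0, 0, 0, 0⟩))
    (.s0
    (.s0
    (.leaf (.box ⟨506, -24, 512, 23, 5, 194, 103572, 0, 0, 0, 0, 0, 0⟩ ⟨0, 0, 0, 0, 0, 0, 93316, 0, 0, 0, 0, 0, 0⟩ ⟨0, 0, 0, 0, 0, 0, 93316, 0, 0, 0, 0, 0, 0⟩ ⟨0, 0, 0, 0, 0, 0, 84909, 0, 0, 0, 0, 0, 0⟩ ⟨0, 0, 0, 0, 0, 0, 84909, 0, 0, 0, 0, 0, 0⟩ ⟨360, -29, 512, 40, 17, 292, 77890, 0, 0, 0, 0, 0, 0⟩))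
    (.leaf (.box ⟨512, -11, 443, 10, 2, 224, 306518, 0, 0, 0, 0, 0, 0⟩ ⟨512, -39, 474, 40, 10, 314, 93969, 0, 0, 0, 0, 0, 0⟩ ⟨512, -39, 474, 40, 10, 314, 93969, 0, 0, 0, 0, 0, 0⟩ ⟨512, -42, 494, 50, 17, 418, 92204, 0, 0, 0, 0, 0, 0⟩ ⟨512, -42, 494, 50, 17, 418, 92204, 0, 0, 0, 0, 0, 0⟩ ⟨512, -22, 478, 30, 12, 504, 174924, 0, 0, 0, 0, 0, 0⟩)))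
    (.leaf (.box ⟨512, -39, 163, 30, 3, 207, 106908, 0, 0, 0, 0, 0, 0⟩ ⟨0, 0, 0, 0, 0, 0, 96887, 0, 0, 0, 0, 0, 0⟩ ⟨0, 0, 0, 0, 0, 0, 96887, 0, 0, 0, 0, 0, 0⟩ ⟨0, 0, 0, 0, 0, 0, 88583, 0, 0, 0, 0, 0, 0⟩ ⟨0, 0, 0, 0, 0, 0, 88583, 0, 0, 0, 0, 0, 0⟩ ⟨512, -40, -154, 52, 18, 354, 81590, 0, 0, 0, 0, 0, 0⟩))))
    (.s2
    (.leaf (.box ⟨512, -38, -242, 36, 36, 112, 107746, 0, 0, 0, 0, 0, 0⟩ ⟨0, 0, 0, 0, 0, 0, 94563, 0, 0, 0, 0, 0, 0⟩ ⟨0, 0, 0, 0, 0, 0, 94563, 0, 0, 0, 0, 0, 0⟩ ⟨0, 0, 0, 0, 0, 0, 84255, 0, 0, 0, 0, 0, 0⟩ ⟨0, 0, 0, 0, 0, 0, 84255, 0, 0, 0, 0, 0, 0⟩ ⟨512, -35, -101, 54, 53, 127, 75972, 0, 0, 0, 0, 0, 0⟩))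
    (.s2
    (.leaf (.box ⟨512, -48, 63, 34, 21, 125, 104683, 0, 0, 0, 0, 0, 0⟩ ⟨0, 0, 0, 0, 0, 0, 93632, 0, 0, 0, 0, 0, 0⟩ ⟨0, 0, 0, 0, 0, 0, 93632, 0, 0, 0, 0, 0, 0⟩ ⟨0, 0, 0, 0, 0, 0, 84692, 0, 0, 0, 0, 0, 0⟩ ⟨0, 0, 0, 0, 0, 0, 84692, 0, 0, 0, 0, 0, 0⟩ ⟨512, -32, 23, 41, 30, 128, 77309, 0, 0, 0, 0, 0, 0⟩))
    (.leaf (.box ⟨512, -55, 255, 34, 4, 117, 102430, 0, 0, 0, 0, 0, 0⟩ ⟨0, 0, 0, 0, 0, 0, 92398, 0, 0, 0, 0, 0, 0⟩ ⟨0, 0, 0, 0, 0, 0, 92398, 0, 0, 0, 0, 0, 0⟩ ⟨0, 0, 0, 0, 0, 0, 84155, 0, 0, 0, 0, 0, 0⟩ ⟨0, 0, 0, 0, 0, 0, 84155, 0, 0, 0, 0, 0, 0⟩ ⟨512, -31, 69, 38, 12, 125, 77262, 0, 0, 0, 0, 0, 0⟩))))))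

/-- A piece of the tree. -/
noncomputable def tree9 : Tree LeafX :=
  .s1
    (.s0
    (.leaf (.box ⟨512, -16, -437, 31, 9, 97, 113640, 0, 0, 0, 0, 0, 0⟩ ⟨0, 0, 0, 0, 0, 0, 98652, 0, 0, 0, 0, 0, 0⟩ ⟨0, 0, 0, 0, 0, 0, 98652, 0, 0, 0, 0, 0, 0⟩ ⟨0, 0, 0, 0, 0, 0, 87157, 0, 0, 0, 0, 0, 0⟩ ⟨0, 0, 0, 0, 0, 0, 87157, 0, 0, 0, 0, 0, 0⟩ ⟨512, -21, -484, 55, 18, 157, 78061, 0, 0, 0, 0, 0, 0⟩))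
    (.s2
    (.leaf (.box ⟨166, -4, -512, 13, 13, 65, 140798, 0, 0, 0, 0, 0, 0⟩ ⟨0, 0, 0, 0, 0, 0, 123964, 0, 0, 0, 0, 0, 0⟩ ⟨0, 0, 0, 0, 0, 0, 123964, 0, 0, 0, 0, 0, 0⟩ ⟨0, 0, 0, 0, 0, 0, 110725, 0, 0, 0, 0, 0, 0⟩ ⟨0, 0, 0, 0, 0, 0, 110725, 0, 0, 0, 0, 0, 0⟩ ⟨204, -8, -512, 30, 25, 100, 100040, 0, 0, 0, 0, 0, 0⟩))
    (.leaf (.box ⟨167, -6, -512, 12, 9, 66, 137542, 0, 0, 0, 0, 0, 0⟩ ⟨0, 0, 0, 0, 0, 0, 121729, 0, 0, 0, 0, 0, 0⟩ ⟨0, 0, 0, 0, 0, 0, 121729, 0, 0, 0, 0, 0, 0⟩ ⟨0, 0, 0, 0, 0, 0, 109177, 0, 0, 0, 0, 0, 0⟩ ⟨0, 0, 0, 0, 0, 0, 109177, 0, 0, 0, 0, 0, 0⟩ ⟨155, -8, -512, 19, 13, 88, 98971, 0, 0, 0, 0, 0, 0⟩))))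
    (.s1
    (.s0
    (.s2
    (.leaf (.box ⟨425, -26, -512, 25, 21, 123, 120853, 0, 0, 0, 0, 0, 0⟩ ⟨0, 0, 0, 0, 0, 0, 109056, 0, 0, 0, 0, 0, 0⟩ ⟨0, 0, 0, 0, 0, 0, 109056, 0, 0, 0, 0, 0, 0⟩ ⟨0, 0, 0, 0, 0, 0, 99356, 0, 0, 0, 0, 0, 0⟩ ⟨0, 0, 0, 0, 0, 0, 99356, 0, 0, 0, 0, 0, 0⟩ ⟨306, -24, -512, 38, 37, 192, 91241, 0, 0, 0, 0, 0, 0⟩))
    (.leaf (.box ⟨512, -47, -420, 29, 8, 137, 111151, 0, 0, 0, 0, 0, 0⟩ ⟨0, 0, 0, 0, 0, 0, 101445, 0, 0, 0, 0, 0, 0⟩ ⟨0, 0, 0, 0, 0, 0, 101445, 0, 0, 0, 0, 0, 0⟩ ⟨0, 0, 0, 0, 0, 0, 93298, 0, 0, 0, 0, 0, 0⟩ ⟨0, 0, 0, 0, 0, 0, 93298, 0, 0, 0, 0, 0, 0⟩ ⟨347, -22, -512, 28, 13, 159, 86362, 0, 0, 0, 0, 0, 0⟩)))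
    (.s2
    (.s2
    (.leaf (.box ⟨112, -7, -512, 9, 18, 74, 144525, 0, 0, 0, 0, 0, 0⟩ ⟨0, 0, 0, 0, 0, 0, 130212, 0, 0, 0, 0, 0, 0⟩ ⟨0, 0, 0, 0, 0, 0, 130212, 0, 0, 0, 0, 0, 0⟩ ⟨0, 0, 0, 0, 0, 0, 118478, 0, 0, 0, 0, 0, 0⟩ ⟨0, 0, 0, 0, 0, 0, 118478, 0, 0, 0, 0, 0, 0⟩ ⟨140, -9, -512, 18, 32, 121, 108684, 0, 0, 0, 0, 0, 0⟩))
    (.leaf (.box ⟨134, -10, -512, 9, 16, 74, 137616, 0, 0, 0, 0, 0, 0⟩ ⟨0, 0, 0, 0, 0, 0, 125726, 0, 0, 0, 0, 0, 0⟩ ⟨0, 0, 0, 0, 0, 0, 125726, 0, 0, 0, 0, 0, 0⟩ ⟨0, 0, 0, 0, 0, 0, 115727, 0, 0, 0, 0, 0, 0⟩ ⟨0, 0, 0, 0, 0, 0, 115727, 0, 0, 0, 0, 0, 0⟩ ⟨123, -9, -512, 14, 21, 108, 107201, 0, 0, 0, 0, 0, 0⟩)))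
    (.s2
    (.leaf (.box ⟨149, -15, -512, 11, 13, 73, 135349, 0, 0, 0, 0, 0, 0⟩ ⟨0, 0, 0, 0, 0, 0, 124536, 0, 0, 0, 0, 0, 0⟩ ⟨0, 0, 0, 0, 0, 0, 124536, 0, 0, 0, 0, 0, 0⟩ ⟨0, 0, 0, 0, 0, 0, 115323, 0, 0, 0, 0, 0, 0⟩ ⟨0, 0, 0, 0, 0, 0, 115323, 0, 0, 0, 0, 0, 0⟩ ⟨107, -8, -512, 11, 15, 100, 107379, 0, 0, 0, 0, 0, 0⟩))
    (.leaf (.box ⟨147, -14, -512, 10, 11, 71, 134973, 0, 0, 0, 0, 0, 0⟩ ⟨0, 0, 0, 0, 0, 0, 124667, 0, 0, 0, 0, 0, 0⟩ ⟨0, 0, 0, 0, 0, 0, 124667, 0, 0, 0, 0, 0, 0⟩ ⟨0, 0, 0, 0, 0, 0, 115824, 0, 0, 0, 0, 0, 0⟩ ⟨0, 0, 0, 0, 0, 0, 115824, 0, 0, 0, 0, 0, 0⟩ ⟨95, -7, -512, 10, 11, 93, 108151, 0, 0, 0, 0, 0, 0⟩)))))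
    (.s0
    (.s2
    (.leaf (.box ⟨411, -20, -512, 13, 13, 110, 312664, 0, 0, 0, 0, 0, 0⟩ ⟨320, -46, -512, 39, 43, 126, 102012, 0, 0, 0, 0, 0, 0⟩ ⟨320, -46, -512, 39, 43, 126, 102012, 0, 0, 0, 0, 0, 0⟩ ⟨275, -38, -512, 42, 45, 149, 108023, 0, 0, 0, 0, 0, 0⟩ ⟨275, -38, -512, 42, 45, 149, 108023, 0, 0, 0, 0, 0, 0⟩ ⟨250, -19, -512, 25, 26, 173, 207305, 0, 0, 0, 0, 0, 0⟩))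
    (.s1
    (.leaf (.box ⟨512, -25, -433, 12, 5, 132, 286443, 0, 0, 0, 0, 0, 0⟩ ⟨413, -46, -512, 32, 17, 150, 97800, 0, 0, 0, 0, 0, 0⟩ ⟨413, -46, -512, 32, 17, 150, 97800, 0, 0, 0, 0, 0, 0⟩ ⟨329, -29, -512, 27, 15, 152, 106322, 0, 0, 0, 0, 0, 0⟩ ⟨329, -29, -512, 27, 15, 152, 106322, 0, 0, 0, 0, 0, 0⟩ ⟨297, -10, -512, 12, 8, 154, 212210, 0, 0, 0, 0, 0, 0⟩))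
    (.s0
    (.leaf (.box ⟨512, -116, -483, 51, 25, 183, 105874, 0, 0, 0, 0, 0, 0⟩ ⟨0, 0, 0, 0, 0, 0, 99000, 0, 0, 0, 0, 0, 0⟩ ⟨0, 0, 0, 0, 0, 0, 99000, 0, 0, 0, 0, 0, 0⟩ ⟨0, 0, 0, 0, 0, 0, 92963, 0, 0, 0, 0, 0, 0⟩ ⟨0, 0, 0, 0, 0, 0, 92963, 0, 0, 0, 0, 0, 0⟩ ⟨265, -38, -512, 44, 32, 191, 87620, 0, 0, 0, 0, 0, 0⟩))
    (.leaf (.box ⟨238, -58, -512, 24, 17, 96, 117083, 0, 0, 0, 0, 0, 0⟩ ⟨0, 0, 0, 0, 0, 0, 110817, 0, 0, 0, 0, 0, 0⟩ ⟨0, 0, 0, 0, 0, 0, 110817, 0, 0, 0, 0, 0, 0⟩ ⟨0, 0, 0, 0, 0, 0, 105187, 0, 0, 0, 0, 0, 0⟩ ⟨0, 0, 0, 0, 0, 0, 105187, 0, 0, 0, 0, 0, 0⟩ ⟨137, -22, -512, 26, 19, 125, 100101, 0, 0, 0, 0, 0, 0⟩)))))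
    (.s2
    (.leaf (.box ⟨105, -10, -512, 7, 10, 82, 325748, 0, 0, 0, 0, 0, 0⟩ ⟨88, -21, -512, 20, 29, 93, 120932, 0, 0, 0, 0, 0, 0⟩ ⟨88, -21, -512, 20, 29, 93, 120932, 0, 0, 0, 0, 0, 0⟩ ⟨113, -17, -512, 20, 27, 106, 133998, 0, 0, 0, 0, 0, 0⟩ ⟨113, -17, -512, 20, 27, 106, 133998, 0, 0, 0, 0, 0, 0⟩ ⟨146, -8, -512, 11, 15, 119, 256934, 0, 0, 0, 0, 0, 0⟩))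
    (.s1
    (.s2
    (.leaf (.box ⟨180, -11, -683, 6, 9, 103, 331500, 0, 0, 0, 0, 0, 0⟩ ⟨114, -14, -512, 11, 17, 87, 121089, 0, 0, 0, 0, 0, 0⟩ ⟨114, -14, -512, 11, 17, 87, 121089, 0, 0, 0, 0, 0, 0⟩ ⟨105, -10, -512, 10, 14, 96, 134814, 0, 0, 0, 0, 0, 0⟩ ⟨105, -10, -512, 10, 14, 96, 134814, 0, 0, 0, 0, 0, 0⟩ ⟨125, -5, -633, 6, 9, 127, 271741, 0, 0, 0, 0, 0, 0⟩))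
    (.leaf (.box ⟨164, -11, -563, 6, 6, 79, 330937, 0, 0, 0, 0, 0, 0⟩ ⟨116, -16, -512, 13, 12, 82, 121435, 0, 0, 0, 0, 0, 0⟩ ⟨116, -16, -512, 13, 12, 82, 121435, 0, 0, 0, 0, 0, 0⟩ ⟨101, -10, -512, 11, 10, 90, 137169, 0, 0, 0, 0, 0, 0⟩ ⟨101, -10, -512, 11, 10, 90, 137169, 0, 0, 0, 0, 0, 0⟩ ⟨112, -4, -651, 6, 6, 122, 280031, 0, 0, 0, 0, 0, 0⟩)))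
    (.s2
    (.leaf (.box ⟨121, -25, -512, 12, 19, 73, 134227, 0, 0, 0, 0, 0, 0⟩ ⟨0, 0, 0, 0, 0, 0, 127504, 0, 0, 0, 0, 0, 0⟩ ⟨0, 0, 0, 0, 0, 0, 127504, 0, 0, 0, 0, 0, 0⟩ ⟨0, 0, 0, 0, 0, 0, 121423, 0, 0, 0, 0, 0, 0⟩ ⟨0, 0, 0, 0, 0, 0, 121423, 0, 0, 0, 0, 0, 0⟩ ⟨92, -10, -512, 13, 20, 102, 115894, 0, 0, 0, 0, 0, 0⟩))
    (.leaf (.box ⟨142, -25, -512, 13, 15, 67, 134686, 0, 0, 0, 0, 0, 0⟩ ⟨0, 0, 0, 0, 0, 0, 128514, 0, 0, 0, 0, 0, 0⟩ ⟨0, 0, 0, 0, 0, 0, 128514, 0, 0, 0, 0, 0, 0⟩ ⟨0, 0, 0, 0, 0, 0, 122883, 0, 0, 0, 0, 0, 0⟩ ⟨0, 0, 0, 0, 0, 0, 122883, 0, 0, 0, 0, 0, 0⟩ ⟨83, -9, -512, 12, 12, 95, 117724, 0, 0, 0, 0, 0, 0⟩)))))))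

/-- A piece of the tree. -/
noncomputable def tree10 : Tree LeafX :=
  .s0
    (.s2
    (.s0
    (.s1
    (.leaf (.box ⟨361, -3, 512, 13, 2, 81, 74692, 0, 0, 0, 0, 0, 0⟩ ⟨0, 0, 0, 0, 0, 0, 63671, 0, 0, 0, 0, 0, 0⟩ ⟨0, 0, 0, 0, 0, 0, 63671, 0, 0, 0, 0, 0, 0⟩ ⟨0, 0, 0, 0, 0, 0, 55484, 0, 0, 0, 0, 0, 0⟩ ⟨0, 0, 0, 0, 0, 0, 55484, 0, 0, 0, 0, 0, 0⟩ ⟨251, -6, 512, 25, 5, 108, 49162, 0, 0, 0, 0, 0, 0⟩))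
    (.leaf (.box ⟨357, -6, 512, 8, 2, 66, 76911, 0, 0, 0, 0, 0, 0⟩ ⟨0, 0, 0, 0, 0, 0, 67571, 0, 0, 0, 0, 0, 0⟩ ⟨0, 0, 0, 0, 0, 0, 67571, 0, 0, 0, 0, 0, 0⟩ ⟨0, 0, 0, 0, 0, 0, 60254, 0, 0, 0, 0, 0, 0⟩ ⟨0, 0, 0, 0, 0, 0, 60254, 0, 0, 0, 0, 0, 0⟩ ⟨299, -11, 512, 18, 10, 101, 54366, 0, 0, 0, 0, 0, 0⟩)))
    (.leaf (.box ⟨302, -6, 512, 11, -1, 103, 88055, 0, 0, 0, 0, 0, 0⟩ ⟨0, 0, 0, 0, 0, 0, 75703, 0, 0, 0, 0, 0, 0⟩ ⟨0, 0, 0, 0, 0, 0, 75703, 0, 0, 0, 0, 0, 0⟩ ⟨0, 0, 0, 0, 0, 0, 66389, 0, 0, 0, 0, 0, 0⟩ ⟨0, 0, 0, 0, 0, 0, 66389, 0, 0, 0, 0, 0, 0⟩ ⟨177, -8, 512, 17, 1, 134, 59116, 0, 0, 0, 0, 0, 0⟩)))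
    (.leaf (.box ⟨512, -6, 475, 9, 1, 71, 230060, 0, 0, 0, 0, 0, 0⟩ ⟨512, -24, 490, 40, 8, 80, 53079, 0, 0, 0, 0, 0, 0⟩ ⟨512, -24, 490, 40, 8, 80, 53079, 0, 0, 0, 0, 0, 0⟩ ⟨512, -26, 467, 47, 10, 83, 47388, 0, 0, 0, 0, 0, 0⟩ ⟨512, -26, 467, 47, 10, 83, 47388, 0, 0, 0, 0, 0, 0⟩ ⟨512, -14, 438, 27, 6, 84, 83507, 0, 0, 0, 0, 0, 0⟩)))
    (.s2
    (.s0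
    (.leaf (.box ⟨380, -9, 512, 17, -4, 152, 94521, 0, 0, 0, 0, 0, 0⟩ ⟨0, 0, 0, 0, 0, 0, 81379, 0, 0, 0, 0, 0, 0⟩ ⟨0, 0, 0, 0, 0, 0, 81379, 0, 0, 0, 0, 0, 0⟩ ⟨0, 0, 0, 0, 0, 0, 71446, 0, 0, 0, 0, 0, 0⟩ ⟨0, 0, 0, 0, 0, 0, 71446, 0, 0, 0, 0, 0, 0⟩ ⟨441, -10, 512, 23, -6, 220, 63673, 0, 0, 0, 0, 0, 0⟩))
    (.s1
    (.leaf (.box ⟨512, -2, 37, 7, -3, 142, 99809, 0, 0, 0, 0, 0, 0⟩ ⟨0, 0, 0, 0, 0, 0, 85717, 0, 0, 0, 0, 0, 0⟩ ⟨0, 0, 0, 0, 0, 0, 85717, 0, 0, 0, 0, 0, 0⟩ ⟨0, 0, 0, 0, 0, 0, 75112, 0, 0, 0, 0, 0, 0⟩ ⟨0, 0, 0, 0, 0, 0, 75112, 0, 0, 0, 0, 0, 0⟩ ⟨512, -3, -61, 12, -5, 187, 66842, 0, 0, 0, 0, 0, 0⟩))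
    (.leaf (.box ⟨512, -12, 156, 14, -5, 146, 99576, 0, 0, 0, 0, 0, 0⟩ ⟨0, 0, 0, 0, 0, 0, 87934, 0, 0, 0, 0, 0, 0⟩ ⟨0, 0, 0, 0, 0, 0, 87934, 0, 0, 0, 0, 0, 0⟩ ⟨0, 0, 0, 0, 0, 0, 78729, 0, 0, 0, 0, 0, 0⟩ ⟨0, 0, 0, 0, 0, 0, 78729, 0, 0, 0, 0, 0, 0⟩ ⟨512, -9, -65, 15, -5, 209, 71268, 0, 0, 0, 0, 0, 0⟩))))
    (.leaf (.box ⟨512, -8, 1, 16, -1, 83, 87880, 0, 0, 14459029, 0, 0, 0⟩ ⟨0, 0, 0, 0, 0, 0, 75853, 0, 0, 0, 0, 0, 0⟩ ⟨0, 0, 0, 0, 0, 0, 75853, 0, 0, 0, 0, 0, 0⟩ ⟨0, 0, 0, 0, 0, 0, 66721, 0, 0, 0, 0, 0, 0⟩ ⟨0, 0, 0, 0, 0, 0, 66721, 0, 0, 0, 0, 0, 0⟩ ⟨512, -7, 10, 18, -2, 84, 59551, 0, 0, 0, 0, 0, 0⟩)))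

/-- A piece of the tree. -/
noncomputable def tree11 : Tree LeafX :=
  .s0
    (.s1
    (.s0
    (.leaf (.box ⟨334, -17, 512, 16, 1, 48, 78862, 0, 0, 0, 0, 0, 0⟩ ⟨0, 0, 0, 0, 0, 0, 71315, 0, 0, 0, 0, 0, 0⟩ ⟨0, 0, 0, 0, 0, 0, 71315, 0, 0, 0, 0, 0, 0⟩ ⟨0, 0, 0, 0, 0, 0, 65086, 0, 0, 0, 0, 0, 0⟩ ⟨0, 0, 0, 0, 0, 0, 65086, 0, 0, 0, 0, 0, 0⟩ ⟨397, -20, 512, 26, 11, 81, 59857, 0, 0, 0, 0, 0, 0⟩))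
    (.s2
    (.s2
    (.leaf (.box ⟨248, -12, 512, 10, -3, 82, 96091, 0, 0, 0, 0, 0, 0⟩ ⟨0, 0, 0, 0, 0, 0, 86484, 0, 0, 0, 0, 0, 0⟩ ⟨0, 0, 0, 0, 0, 0, 86484, 0, 0, 0, 0, 0, 0⟩ ⟨0, 0, 0, 0, 0, 0, 78623, 0, 0, 0, 0, 0, 0⟩ ⟨0, 0, 0, 0, 0, 0, 78623, 0, 0, 0, 0, 0, 0⟩ ⟨271, -13, 512, 16, 2, 135, 72072, 0, 0, 0, 0, 0, 0⟩))
    (.leaf (.box ⟨209, -15, 512, 12, -6, 70, 94865, 0, 0, 0, 0, 0, 0⟩ ⟨0, 0, 0, 0, 0, 0, 85692, 0, 0, 0, 0, 0, 0⟩ ⟨0, 0, 0, 0, 0, 0, 85692, 0, 0, 0, 0, 0, 0⟩ ⟨0, 0, 0, 0, 0, 0, 78136, 0, 0, 0, 0, 0, 0⟩ ⟨0, 0, 0, 0, 0, 0, 78136, 0, 0, 0, 0, 0, 0⟩ ⟨227, -18, 512, 22, -2, 128, 71804, 0, 0, 0, 0, 0, 0⟩)))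
    (.leaf (.box ⟨255, -28, 512, 21, -8, 68, 94001, 0, 0, 0, 0, 0, 0⟩ ⟨0, 0, 0, 0, 0, 0, 85218, 0, 0, 0, 0, 0, 0⟩ ⟨0, 0, 0, 0, 0, 0, 85218, 0, 0, 0, 0, 0, 0⟩ ⟨0, 0, 0, 0, 0, 0, 77935, 0, 0, 0, 0, 0, 0⟩ ⟨0, 0, 0, 0, 0, 0, 77935, 0, 0, 0, 0, 0, 0⟩ ⟨460, -37, 512, 44, -6, 143, 71799, 0, 0, 0, 0, 0, 0⟩))))
    (.s2
    (.leaf (.box ⟨424, -11, 512, 12, 0, 48, 290923, 0, 0, 0, 0, 0, 0⟩ ⟨512, -31, 448, 40, 0, 48, 81437, 0, 0, 0, 0, 0, 0⟩ ⟨512, -31, 448, 40, 0, 48, 81437, 0, 0, 0, 0, 0, 0⟩ ⟨512, -25, 351, 37, 1, 43, 72906, 0, 0, 0, 0, 0, 0⟩ ⟨512, -25, 351, 37, 1, 43, 72906, 0, 0, 0, 0, 0, 0⟩ ⟨512, -12, 280, 19, 1, 38, 118729, 0, 0, 0, 0, 0, 0⟩))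
    (.leaf (.box ⟨412, -33, 512, 33, -10, 38, 94088, 0, 0, 0, 0, 0, 0⟩ ⟨0, 0, 0, 0, 0, 0, 81208, 0, 0, 0, 0, 0, 0⟩ ⟨0, 0, 0, 0, 0, 0, 81208, 0, 0, 0, 0, 0, 0⟩ ⟨0, 0, 0, 0, 0, 0, 71430, 0, 0, 0, 0, 0, 0⟩ ⟨0, 0, 0, 0, 0, 0, 71430, 0, 0, 0, 0, 0, 0⟩ ⟨512, -24, 217, 35, -7, 34, 63753, 0, 0, 0, 0, 0, 0⟩))))
    (.s0
    (.s2
    (.s1
    (.s2
    (.s1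
    (.leaf (.box ⟨238, -12, 512, 10, -7, 126, 100732, 0, 0, 0, 0, 0, 0⟩ ⟨0, 0, 0, 0, 0, 0, 91051, 0, 0, 0, 0, 0, 0⟩ ⟨0, 0, 0, 0, 0, 0, 91051, 0, 0, 0, 0, 0, 0⟩ ⟨0, 0, 0, 0, 0, 0, 83068, 0, 0, 0, 0, 0, 0⟩ ⟨0, 0, 0, 0, 0, 0, 83068, 0, 0, 0, 0, 0, 0⟩ ⟨372, -12, 512, 15, -6, 271, 76371, 0, 0, 0, 0, 0, 0⟩))
    (.leaf (.box ⟨248, -16, 512, 11, -9, 114, 101281, 0, 0, 0, 0, 0, 0⟩ ⟨0, 0, 0, 0, 0, 0, 92417, 0, 0, 0, 0, 0, 0⟩ ⟨0, 0, 0, 0, 0, 0, 92417, 0, 0, 0, 0, 0, 0⟩ ⟨0, 0, 0, 0, 0, 0, 84980, 0, 0, 0, 0, 0, 0⟩ ⟨0, 0, 0, 0, 0, 0, 84980, 0, 0, 0, 0, 0, 0⟩ ⟨416, -18, 512, 21, -8, 279, 78650, 0, 0, 0, 0, 0, 0⟩)))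
    (.leaf (.box ⟨273, -21, 512, 15, -13, 103, 98354, 0, 0, 0, 0, 0, 0⟩ ⟨0, 0, 0, 0, 0, 0, 89298, 0, 0, 0, 0, 0, 0⟩ ⟨0, 0, 0, 0, 0, 0, 89298, 0, 0, 0, 0, 0, 0⟩ ⟨0, 0, 0, 0, 0, 0, 81769, 0, 0, 0, 0, 0, 0⟩ ⟨0, 0, 0, 0, 0, 0, 81769, 0, 0, 0, 0, 0, 0⟩ ⟨512, -27, 427, 32, -18, 230, 75410, 0, 0, 0, 0, 0, 0⟩)))
    (.leaf (.box ⟨431, -53, 512, 34, -16, 86, 96376, 0, 0, 0, 0, 0, 0⟩ ⟨0, 0, 0, 0, 0, 0, 87566, 0, 0, 0, 0, 0, 0⟩ ⟨0, 0, 0, 0, 0, 0, 87566, 0, 0, 0, 0, 0, 0⟩ ⟨0, 0, 0, 0, 0, 0, 80232, 0, 0, 0, 0, 0, 0⟩ ⟨0, 0, 0, 0, 0, 0, 80232, 0, 0, 0, 0, 0, 0⟩ ⟨512, -61, 355, 74, -22, 174, 74031, 0, 0, 0, 0, 0, 0⟩)))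
    (.leaf (.box ⟨512, -63, 287, 42, -17, 45, 88243, 0, 0, 0, 0, 0, 0⟩ ⟨0, 0, 0, 0, 0, 0, 80085, 0, 0, 0, 0, 0, 0⟩ ⟨0, 0, 0, 0, 0, 0, 80085, 0, 0, 0, 0, 0, 0⟩ ⟨0, 0, 0, 0, 0, 0, 73307, 0, 0, 0, 0, 0, 0⟩ ⟨0, 0, 0, 0, 0, 0, 73307, 0, 0, 0, 0, 0, 0⟩ ⟨512, -53, 46, 63, -22, 69, 67586, 0, 0, 0, 0, 0, 0⟩)))
    (.s2
    (.s1
    (.s2
    (.leaf (.box ⟨512, -33, 390, 22, -17, 213, 103093, 0, 0, 0, 0, 0, 0⟩ ⟨0, 0, 0, 0, 0, 0, 93722, 0, 0, 0, 0, 0, 0⟩ ⟨0, 0, 0, 0, 0, 0, 93722, 0, 0, 0, 0, 0, 0⟩ ⟨0, 0, 0, 0, 0, 0, 85913, 0, 0, 0, 0, 0, 0⟩ ⟨0, 0, 0, 0, 0, 0, 85913, 0, 0, 0, 0, 0, 0⟩ ⟨512, -16, -134, 20, -9, 276, 79304, 0, 0, 0, 0, 0, 0⟩))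
    (.leaf (.box ⟨512, -35, 210, 24, -18, 149, 100229, 0, 0, 0, 0, 0, 0⟩ ⟨0, 0, 0, 0, 0, 0, 91212, 0, 0, 0, 0, 0, 0⟩ ⟨0, 0, 0, 0, 0, 0, 91212, 0, 0, 0, 0, 0, 0⟩ ⟨0, 0, 0, 0, 0, 0, 83684, 0, 0, 0, 0, 0, 0⟩ ⟨0, 0, 0, 0, 0, 0, 83684, 0, 0, 0, 0, 0, 0⟩ ⟨512, -20, -203, 25, -17, 213, 77303, 0, 0, 0, 0, 0, 0⟩)))
    (.leaf (.box ⟨512, -92, 265, 49, -26, 122, 95499, 0, 0, 0, 0, 0, 0⟩ ⟨0, 0, 0, 0, 0, 0, 87783, 0, 0, 0, 0, 0, 0⟩ ⟨0, 0, 0, 0, 0, 0, 87783, 0, 0, 0, 0, 0, 0⟩ ⟨0, 0, 0, 0, 0, 0, 81220, 0, 0, 0, 0, 0, 0⟩ ⟨0, 0, 0, 0, 0, 0, 81220, 0, 0, 0, 0, 0, 0⟩ ⟨512, -55, -170, 65, -24, 163, 75570, 0, 0, 0, 0, 0, 0⟩)))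
    (.s1
    (.leaf (.box ⟨512, -35, -106, 30, -13, 95, 97333, 0, 0, 0, 0, 0, 0⟩ ⟨0, 0, 0, 0, 0, 0, 88158, 0, 0, 0, 0, 0, 0⟩ ⟨0, 0, 0, 0, 0, 0, 88158, 0, 0, 0, 0, 0, 0⟩ ⟨0, 0, 0, 0, 0, 0, 80563, 0, 0, 0, 0, 0, 0⟩ ⟨0, 0, 0, 0, 0, 0, 80563, 0, 0, 0, 0, 0, 0⟩ ⟨512, -20, -280, 27, -15, 106, 74173, 0, 0, 0, 0, 0, 0⟩))
    (.leaf (.box ⟨512, -66, 82, 46, -33, 61, 88212, 0, 0, 0, 0, 0, 0⟩ ⟨0, 0, 0, 0, 0, 0, 80177, 0, 0, 0, 0, 0, 0⟩ ⟨0, 0, 0, 0, 0, 0, 80177, 0, 0, 0, 0, 0, 0⟩ ⟨0, 0, 0, 0, 0, 0, 73483, 0, 0, 0, 0, 0, 0⟩ ⟨0, 0, 0, 0, 0, 0, 73483, 0, 0, 0, 0, 0, 0⟩ ⟨512, -46, -305, 60, -44, 84, 67820, 0, 0, 0, 0, 0, 0⟩)))))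

/-- A piece of the tree. -/
noncomputable def tree12 : Tree LeafX :=
  .s2
    (.leaf (.box ⟨512, -3, -469, 7, 2, 68, 347020, 0, 0, 0, 0, 0, 0⟩ ⟨491, -11, -512, 26, 6, 79, 93133, 0, 0, 0, 0, 0, 0⟩ ⟨491, -11, -512, 26, 6, 79, 93133, 0, 0, 0, 0, 0, 0⟩ ⟨446, -10, -512, 26, 7, 84, 82389, 0, 0, 0, 0, 0, 0⟩ ⟨446, -10, -512, 26, 7, 84, 82389, 0, 0, 0, 0, 0, 0⟩ ⟨424, -5, -512, 14, 4, 88, 143484, 0, 0, 0, 0, 0, 0⟩))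
    (.s0
    (.leaf (.box ⟨413, -3, -512, 15, 2, 72, 107208, 0, 0, 0, 0, 2288135086, 0⟩ ⟨0, 0, 0, 0, 0, 0, 91358, 0, 0, 0, 0, 0, 0⟩ ⟨0, 0, 0, 0, 0, 0, 91358, 0, 0, 0, 0, 0, 0⟩ ⟨0, 0, 0, 0, 0, 0, 79590, 0, 0, 0, 0, 0, 0⟩ ⟨0, 0, 0, 0, 0, 0, 79590, 0, 0, 0, 0, 0, 0⟩ ⟨341, -4, -512, 19, 2, 81, 70508, 0, 0, 0, 0, 0, 0⟩))
    (.leaf (.box ⟨84, -2, -512, 12, 5, 64, 154063, 0, 0, 0, 0, 1468748994, 0⟩ ⟨0, 0, 0, 0, 0, 0, 133717, 0, 0, 0, 0, 0, 0⟩ ⟨0, 0, 0, 0, 0, 0, 133717, 0, 0, 0, 0, 0, 0⟩ ⟨0, 0, 0, 0, 0, 0, 118118, 0, 0, 0, 0, 0, 0⟩ ⟨0, 0, 0, 0, 0, 0, 118118, 0, 0, 0, 0, 0, 0⟩ ⟨83, -3, -512, 18, 7, 73, 105778, 0, 0, 0, 0, 992755398, 0⟩)))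

/-- A piece of the tree. -/
noncomputable def tree13 : Tree LeafX :=
  .s3
    (.s1
    (.s0
    (.leaf (.box ⟨512, -42, -426, 31, -2, 101, 107919, 0, 0, 0, 0, 0, 0⟩ ⟨0, 0, 0, 0, 0, 0, 98596, 0, 0, 0, 0, 0, 0⟩ ⟨0, 0, 0, 0, 0, 0, 98596, 0, 0, 0, 0, 0, 0⟩ ⟨0, 0, 0, 0, 0, 0, 90756, 0, 0, 0, 0, 0, 0⟩ ⟨0, 0, 0, 0, 0, 0, 90756, 0, 0, 0, 0, 0, 0⟩ ⟨356, -13, -512, 20, -3, 117, 84070, 0, 0, 0, 0, 0, 0⟩))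
    (.leaf (.box ⟨257, -6, -1034, 6, 5, 140, 373683, 0, 0, 0, 0, 680905733, 0⟩ ⟨117, -7, -512, 10, 5, 76, 125721, 0, 0, 0, 0, 84808107, 0⟩ ⟨117, -7, -512, 10, 5, 76, 125721, 0, 0, 0, 0, 84808107, 0⟩ ⟨102, -5, -512, 8, 4, 81, 132275, 0, 0, 9502691, 0, 0, 0⟩ ⟨102, -5, -512, 8, 4, 81, 132275, 0, 0, 9502691, 0, 0, 0⟩ ⟨125, -3, -682, 6, 2, 113, 260916, 0, 0, 0, 0, 0, 0⟩)))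
    (.s0
    (.s1
    (.leaf (.box ⟨512, -56, -428, 33, -6, 99, 106589, 0, 0, 0, 0, 0, 0⟩ ⟨0, 0, 0, 0, 0, 0, 99537, 0, 0, 0, 0, 0, 0⟩ ⟨0, 0, 0, 0, 0, 0, 99537, 0, 0, 0, 0, 0, 0⟩ ⟨0, 0, 0, 0, 0, 0, 93359, 0, 0, 0, 0, 0, 0⟩ ⟨0, 0, 0, 0, 0, 0, 93359, 0, 0, 0, 0, 0, 0⟩ ⟨329, -15, -512, 21, -8, 114, 87903, 0, 0, 0, 0, 0, 0⟩))
    (.leaf (.box ⟨512, -60, -442, 34, -10, 97, 102718, 0, 0, 0, 0, 820955534, 0⟩ ⟨0, 0, 0, 0, 0, 0, 95932, 0, 0, 0, 0, 0, 0⟩ ⟨0, 0, 0, 0, 0, 0, 95932, 0, 0, 0, 0, 0, 0⟩ ⟨0, 0, 0, 0, 0, 0, 89986, 0, 0, 0, 0, 0, 0⟩ ⟨0, 0, 0, 0, 0, 0, 89986, 0, 0, 0, 0, 0, 0⟩ ⟨328, -22, -512, 31, -14, 111, 84734, 0, 0, 0, 0, 0, 0⟩)))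
    (.s1
    (.leaf (.box ⟨131, -13, -512, 11, 6, 67, 142320, 0, 0, 0, 0, 0, 0⟩ ⟨0, 0, 0, 0, 0, 0, 134825, 0, 0, 0, 0, 0, 0⟩ ⟨0, 0, 0, 0, 0, 0, 134825, 0, 0, 0, 0, 0, 0⟩ ⟨0, 0, 0, 0, 0, 0, 128079, 0, 0, 0, 0, 0, 0⟩ ⟨0, 0, 0, 0, 0, 0, 128079, 0, 0, 0, 0, 0, 0⟩ ⟨93, -7, -512, 13, 1, 86, 121976, 0, 0, 0, 0, 0, 0⟩))
    (.leaf (.box ⟨125, -8, -512, 7, 2, 66, 332727, 0, 0, 0, 0, 0, 0⟩ ⟨114, -15, -512, 17, 2, 75, 128348, 0, 0, 0, 0, 0, 0⟩ ⟨114, -15, -512, 17, 2, 75, 128348, 0, 0, 0, 0, 0, 0⟩ ⟨96, -10, -512, 15, 0, 82, 151141, 0, 0, 0, 0, 0, 0⟩ ⟨96, -10, -512, 15, 0, 82, 151141, 0, 0, 0, 0, 0, 0⟩ ⟨90, -4, -512, 7, -1, 86, 314804, 0, 0, 0, 0, 0, 0⟩)))))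
    (.s1
    (.s0
    (.leaf (.box ⟨512, -41, -448, 30, 0, 102, 116102, 0, 0, 0, 0, 0, 0⟩ ⟨0, 0, 0, 0, 0, 0, 104384, 0, 0, 0, 0, 0, 0⟩ ⟨0, 0, 0, 0, 0, 0, 104384, 0, 0, 0, 0, 0, 0⟩ ⟨0, 0, 0, 0, 0, 0, 94814, 0, 0, 0, 0, 0, 0⟩ ⟨0, 0, 0, 0, 0, 0, 94814, 0, 0, 0, 0, 0, 0⟩ ⟨361, -13, -512, 20, -1, 118, 86851, 0, 0, 0, 0, 0, 0⟩))
    (.leaf (.box ⟨124, -8, -512, 8, 7, 67, 150158, 0, 0, 0, 0, 14692672, 0⟩ ⟨0, 0, 0, 0, 0, 0, 136810, 0, 0, 0, 0, 0, 0⟩ ⟨0, 0, 0, 0, 0, 0, 136810, 0, 0, 0, 0, 0, 0⟩ ⟨0, 0, 0, 0, 0, 0, 125641, 0, 0, 0, 0, 0, 0⟩ ⟨0, 0, 0, 0, 0, 0, 125641, 0, 0, 0, 0, 0, 0⟩ ⟨92, -5, -512, 10, 6, 85, 116158, 0, 0, 0, 0, 0, 0⟩)))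
    (.s0
    (.s1
    (.leaf (.box ⟨512, -54, -452, 32, -4, 99, 114385, 0, 0, 0, 0, 0, 0⟩ ⟨0, 0, 0, 0, 0, 0, 105104, 0, 0, 0, 0, 0, 0⟩ ⟨0, 0, 0, 0, 0, 0, 105104, 0, 0, 0, 0, 0, 0⟩ ⟨0, 0, 0, 0, 0, 0, 97216, 0, 0, 0, 0, 0, 0⟩ ⟨0, 0, 0, 0, 0, 0, 97216, 0, 0, 0, 0, 0, 0⟩ ⟨336, -17, -512, 23, -6, 115, 90429, 0, 0, 0, 0, 0, 0⟩))
    (.leaf (.box ⟨512, -60, -447, 33, -8, 93, 110247, 0, 0, 0, 0, 859744118, 0⟩ ⟨0, 0, 0, 0, 0, 0, 101312, 0, 0, 0, 0, 0, 0⟩ ⟨0, 0, 0, 0, 0, 0, 101312, 0, 0, 0, 0, 0, 0⟩ ⟨0, 0, 0, 0, 0, 0, 93717, 0, 0, 0, 0, 0, 0⟩ ⟨0, 0, 0, 0, 0, 0, 93717, 0, 0, 0, 0, 0, 0⟩ ⟨332, -23, -512, 33, -13, 112, 87180, 0, 0, 0, 0, 0, 0⟩)))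
    (.s1
    (.leaf (.box ⟨122, -11, -512, 10, 7, 66, 152658, 0, 0, 0, 0, 0, 0⟩ ⟨0, 0, 0, 0, 0, 0, 142217, 0, 0, 0, 0, 0, 0⟩ ⟨0, 0, 0, 0, 0, 0, 142217, 0, 0, 0, 0, 0, 0⟩ ⟨0, 0, 0, 0, 0, 0, 133113, 0, 0, 0, 0, 0, 0⟩ ⟨0, 0, 0, 0, 0, 0, 133113, 0, 0, 0, 0, 0, 0⟩ ⟨92, -7, -512, 13, 3, 86, 125104, 0, 0, 0, 0, 0, 0⟩))
    (.leaf (.box ⟨115, -19, -512, 15, 6, 65, 153256, 0, 0, 0, 0, 0, 0⟩ ⟨0, 0, 0, 0, 0, 0, 144057, 0, 0, 0, 0, 0, 0⟩ ⟨0, 0, 0, 0, 0, 0, 144057, 0, 0, 0, 0, 0, 0⟩ ⟨0, 0, 0, 0, 0, 0, 135899, 0, 0, 0, 0, 0, 0⟩ ⟨0, 0, 0, 0, 0, 0, 135899, 0, 0, 0, 0, 0, 0⟩ ⟨86, -10, -512, 18, 0, 87, 128615, 0, 0, 0, 0, 0, 0⟩)))))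

/-- A piece of the tree. -/
noncomputable def tree14 : Tree LeafX :=
  .s3
    (.s2
    (.s1
    (.leaf (.box ⟨512, -38, -480, 30, 7, 75, 127532, 0, 0, 0, 0, 0, 0⟩ ⟨0, 0, 0, 0, 0, 0, 112806, 0, 0, 0, 0, 0, 0⟩ ⟨0, 0, 0, 0, 0, 0, 112806, 0, 0, 0, 0, 0, 0⟩ ⟨0, 0, 0, 0, 0, 0, 101128, 0, 0, 0, 0, 0, 0⟩ ⟨0, 0, 0, 0, 0, 0, 101128, 0, 0, 0, 0, 0, 0⟩ ⟨389, -15, -512, 25, 8, 98, 91641, 0, 0, 0, 0, 0, 0⟩))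
    (.s0
    (.s1
    (.leaf (.box ⟨512, -49, -477, 25, 0, 115, 125663, 0, 0, 0, 0, 0, 0⟩ ⟨0, 0, 0, 0, 0, 0, 113540, 0, 0, 0, 0, 0, 0⟩ ⟨0, 0, 0, 0, 0, 0, 113540, 0, 0, 0, 0, 0, 0⟩ ⟨0, 0, 0, 0, 0, 0, 103551, 0, 0, 0, 0, 0, 0⟩ ⟨0, 0, 0, 0, 0, 0, 103551, 0, 0, 0, 0, 0, 0⟩ ⟨322, -12, -512, 15, 0, 127, 95176, 0, 0, 0, 0, 0, 0⟩))
    (.leaf (.box ⟨512, -49, -508, 23, -1, 110, 121862, 0, 0, 0, 0, 1064341912, 0⟩ ⟨0, 0, 0, 0, 0, 0, 110337, 0, 0, 0, 0, 0, 0⟩ ⟨0, 0, 0, 0, 0, 0, 110337, 0, 0, 0, 0, 0, 0⟩ ⟨0, 0, 0, 0, 0, 0, 100803, 0, 0, 0, 0, 0, 0⟩ ⟨0, 0, 0, 0, 0, 0, 100803, 0, 0, 0, 0, 0, 0⟩ ⟨304, -15, -512, 19, -4, 124, 92785, 0, 0, 0, 0, 0, 0⟩)))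
    (.s1
    (.leaf (.box ⟨247, -8, -1200, 6, 7, 157, 481168, 0, 0, 0, 0, 0, 0⟩ ⟨91, -9, -512, 9, 9, 76, 140627, 0, 0, 0, 0, 0, 0⟩ ⟨91, -9, -512, 9, 9, 76, 140627, 0, 0, 0, 0, 0, 0⟩ ⟨79, -5, -512, 7, 6, 84, 159531, 0, 0, 0, 0, 0, 0⟩ ⟨79, -5, -512, 7, 6, 84, 159531, 0, 0, 0, 0, 0, 0⟩ ⟨124, -4, -883, 6, 5, 154, 325627, 0, 0, 0, 0, 0, 0⟩))
    (.leaf (.box ⟨94, -13, -512, 9, 9, 64, 165355, 0, 0, 0, 0, 0, 0⟩ ⟨0, 0, 0, 0, 0, 0, 152418, 0, 0, 0, 0, 0, 0⟩ ⟨0, 0, 0, 0, 0, 0, 152418, 0, 0, 0, 0, 0, 0⟩ ⟨0, 0, 0, 0, 0, 0, 141358, 0, 0, 0, 0, 0, 0⟩ ⟨0, 0, 0, 0, 0, 0, 141358, 0, 0, 0, 0, 0, 0⟩ ⟨66, -7, -512, 11, 5, 90, 131794, 0, 0, 0, 0, 0, 0⟩)))))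
    (.s0
    (.leaf (.box ⟨508, -15, -512, 11, -1, 97, 385873, 0, 0, 0, 0, 1083311109, 0⟩ ⟨419, -36, -512, 36, -5, 102, 102342, 0, 0, 0, 0, 0, 0⟩ ⟨419, -36, -512, 36, -5, 102, 102342, 0, 0, 0, 0, 0, 0⟩ ⟨367, -26, -512, 33, -5, 105, 107736, 0, 0, 0, 0, 0, 0⟩ ⟨367, -26, -512, 33, -5, 105, 107736, 0, 0, 0, 0, 0, 0⟩ ⟨330, -11, -512, 16, -3, 107, 206352, 0, 0, 0, 0, 0, 0⟩))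
    (.s1
    (.leaf (.box ⟨64, -5, -512, 6, 7, 65, 170682, 0, 0, 0, 0, 26815823, 0⟩ ⟨0, 0, 0, 0, 0, 0, 151809, 0, 0, 0, 0, 0, 0⟩ ⟨0, 0, 0, 0, 0, 0, 151809, 0, 0, 0, 0, 0, 0⟩ ⟨0, 0, 0, 0, 0, 0, 136694, 0, 0, 0, 0, 0, 0⟩ ⟨0, 0, 0, 0, 0, 0, 136694, 0, 0, 0, 0, 0, 0⟩ ⟨53, -4, -512, 9, 7, 83, 124316, 0, 0, 0, 0, 0, 0⟩))
    (.leaf (.box ⟨66, -13, -512, 13, 6, 64, 174605, 0, 0, 0, 0, 0, 0⟩ ⟨0, 0, 0, 0, 0, 0, 158831, 0, 0, 0, 0, 0, 0⟩ ⟨0, 0, 0, 0, 0, 0, 158831, 0, 0, 0, 0, 0, 0⟩ ⟨0, 0, 0, 0, 0, 0, 145670, 0, 0, 0, 0, 0, 0⟩ ⟨0, 0, 0, 0, 0, 0, 145670, 0, 0, 0, 0, 0, 0⟩ ⟨52, -9, -512, 17, 2, 84, 134523, 0, 0, 0, 0, 0, 0⟩)))))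
    (.s1
    (.s0
    (.leaf (.box ⟨512, -37, -489, 27, 3, 102, 137170, 0, 0, 0, 0, 0, 0⟩ ⟨0, 0, 0, 0, 0, 0, 118499, 0, 0, 0, 0, 0, 0⟩ ⟨0, 0, 0, 0, 0, 0, 118499, 0, 0, 0, 0, 0, 0⟩ ⟨0, 0, 0, 0, 0, 0, 104301, 0, 0, 0, 0, 0, 0⟩ ⟨0, 0, 0, 0, 0, 0, 104301, 0, 0, 0, 0, 0, 0⟩ ⟨367, -14, -512, 21, 4, 118, 93141, 0, 0, 0, 0, 0, 0⟩))
    (.leaf (.box ⟨319, -6, -1509, 6, 7, 194, 662651, 0, 0, 0, 0, 478368760, 0⟩ ⟨104, -7, -512, 9, 9, 73, 146611, 0, 0, 0, 0, 0, 0⟩ ⟨104, -7, -512, 9, 9, 73, 146611, 0, 0, 0, 0, 0, 0⟩ ⟨102, -5, -512, 9, 8, 79, 150390, 0, 0, 0, 0, 0, 0⟩ ⟨102, -5, -512, 9, 8, 79, 150390, 0, 0, 0, 0, 0, 0⟩ ⟨128, -3, -687, 6, 5, 114, 299252, 0, 0, 0, 0, 0, 0⟩)))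
    (.s0
    (.s1
    (.leaf (.box ⟨512, -14, -506, 8, 0, 101, 502447, 0, 0, 0, 0, 0, 0⟩ ⟨445, -32, -512, 26, -1, 109, 112005, 0, 0, 0, 0, 0, 0⟩ ⟨445, -32, -512, 26, -1, 109, 112005, 0, 0, 0, 0, 0, 0⟩ ⟨385, -20, -512, 21, -2, 113, 118994, 0, 0, 0, 0, 0, 0⟩ ⟨385, -20, -512, 21, -2, 113, 118994, 0, 0, 0, 0, 0, 0⟩ ⟨333, -7, -512, 10, -1, 116, 240530, 0, 0, 0, 0, 0, 0⟩))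
    (.s2
    (.leaf (.box ⟨486, -13, -512, 6, 0, 105, 488147, 0, 0, 0, 0, 1010134001, 0⟩ ⟨390, -30, -512, 22, 0, 116, 110536, 0, 0, 0, 0, 0, 0⟩ ⟨390, -30, -512, 22, 0, 116, 110536, 0, 0, 0, 0, 0, 0⟩ ⟨335, -20, -512, 19, -1, 121, 118449, 0, 0, 0, 0, 0, 0⟩ ⟨335, -20, -512, 19, -1, 121, 118449, 0, 0, 0, 0, 0, 0⟩ ⟨312, -7, -512, 9, -1, 125, 242250, 0, 0, 0, 0, 0, 0⟩))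
    (.leaf (.box ⟨498, -44, -512, 27, -9, 92, 129599, 0, 0, 0, 0, 0, 0⟩ ⟨0, 0, 0, 0, 0, 0, 114434, 0, 0, 0, 0, 0, 0⟩ ⟨0, 0, 0, 0, 0, 0, 114434, 0, 0, 0, 0, 0, 0⟩ ⟨0, 0, 0, 0, 0, 0, 102446, 0, 0, 0, 0, 0, 0⟩ ⟨0, 0, 0, 0, 0, 0, 102446, 0, 0, 0, 0, 0, 0⟩ ⟨292, -19, -512, 27, -17, 106, 92731, 0, 0, 0, 0, 0, 0⟩))))
    (.s1
    (.leaf (.box ⟨104, -12, -512, 10, 9, 64, 179294, 0, 0, 0, 0, 0, 0⟩ ⟨0, 0, 0, 0, 0, 0, 160247, 0, 0, 0, 0, 0, 0⟩ ⟨0, 0, 0, 0, 0, 0, 160247, 0, 0, 0, 0, 0, 0⟩ ⟨0, 0, 0, 0, 0, 0, 144858, 0, 0, 0, 0, 0, 0⟩ ⟨0, 0, 0, 0, 0, 0, 144858, 0, 0, 0, 0, 0, 0⟩ ⟨86, -8, -512, 13, 7, 86, 132165, 0, 0, 0, 0, 0, 0⟩))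
    (.leaf (.box ⟨102, -18, -512, 14, 8, 62, 179789, 0, 0, 0, 0, 0, 0⟩ ⟨0, 0, 0, 0, 0, 0, 162003, 0, 0, 0, 0, 0, 0⟩ ⟨0, 0, 0, 0, 0, 0, 162003, 0, 0, 0, 0, 0, 0⟩ ⟨0, 0, 0, 0, 0, 0, 147419, 0, 0, 0, 0, 0, 0⟩ ⟨0, 0, 0, 0, 0, 0, 147419, 0, 0, 0, 0, 0, 0⟩ ⟨86, -12, -512, 20, 4, 87, 135243, 0, 0, 0, 0, 0, 0⟩)))))

/-- A piece of the tree. -/
noncomputable def tree15 : Tree LeafX :=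
  .s0
    (.s1
    (.leaf (.box ⟨448, -20, -512, 30, -1, 71, 107098, 0, 0, 0, 0, 2331744144, 0⟩ ⟨0, 0, 0, 0, 0, 0, 96540, 0, 0, 0, 0, 0, 0⟩ ⟨0, 0, 0, 0, 0, 0, 96540, 0, 0, 0, 0, 0, 0⟩ ⟨0, 0, 0, 0, 0, 0, 87876, 0, 0, 0, 0, 0, 0⟩ ⟨0, 0, 0, 0, 0, 0, 87876, 0, 0, 0, 0, 0, 0⟩ ⟨325, -12, -512, 28, -4, 80, 80639, 0, 0, 0, 0, 46228386, 0⟩))
    (.leaf (.box ⟨477, -15, -512, 18, -8, 76, 283987, 50083867, 0, 0, 0, 1858327377, 0⟩ ⟨387, -37, -512, 54, -26, 78, 88122, 0, 0, 0, 0, 2266300389, 0⟩ ⟨387, -37, -512, 54, -26, 78, 88122, 0, 0, 0, 0, 2266300389, 0⟩ ⟨356, -30, -512, 51, -25, 77, 88993, 0, 0, 0, 0, 0, 0⟩ ⟨356, -30, -512, 51, -25, 77, 88993, 0, 0, 0, 0, 0, 0⟩ ⟨301, -12, -512, 23, -13, 76,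 172263, 0, 0, 0, 0, 0, 0⟩)))
    (.leaf (.box ⟨61, -14, -512, 32, 3, 63, 156210, 0, 0, 0, 0, 1938509710, 0⟩ ⟨0, 0, 0, 0, 0, 0, 142055, 0, 0, 0, 0, 0, 0⟩ ⟨0, 0, 0, 0, 0, 0, 142055, 0, 0, 0, 0, 0, 0⟩ ⟨0, 0, 0, 0, 0, 0, 130252, 0, 0, 0, 0, 0, 0⟩ ⟨0, 0, 0, 0, 0, 0, 130252, 0, 0, 0, 0, 0, 0⟩ ⟨112, -13, -512, 42, 0, 76, 120259, 0, 0, 0, 0, 1969619553, 0⟩))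

/-- A piece of the tree. -/
noncomputable def tree16 : Tree LeafX :=
  .s1
    (.s1
    (.leaf (.skip 0 8))
    (.s0
    (.leaf (.box ⟨186, 5, -512, 16, 17, 84, 303604, 0, 0, 0, 0, 0, 0⟩ ⟨0, 0, 0, 0, 0, 0, 244847, 0, 0, 0, 0, 0, 0⟩ ⟨0, 0, 0, 0, 0, 0, 244847, 0, 0, 0, 0, 0, 0⟩ ⟨0, 0, 0, 0, 0, 0, 205145, 0, 0, 0, 0, 0, 0⟩ ⟨0, 0, 0, 0, 0, 0, 205145, 0, 0, 0, 0, 0, 0⟩ ⟨208, 24, -512, 38, 39, 99, 176521, 0, 0, 0, 0, 0, 0⟩))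
    (.leaf (.box ⟨173, 5, -512, 13, 17, 121, 556614, 0, 0, 0, 0, 0, 0⟩ ⟨0, 0, 0, 0, 0, 0, 428903, 0, 0, 0, 0, 0, 0⟩ ⟨0, 0, 0, 0, 0, 0, 428903, 0, 0, 0, 0, 0, 0⟩ ⟨0, 0, 0, 0, 0, 0, 348860, 0, 0, 0, 0, 0, 0⟩ ⟨0, 0, 0, 0, 0, 0, 348860, 0, 0, 0, 0, 0, 0⟩ ⟨427, 35, -512, 44, 44, 144, 293993, 0, 0, 0, 0, 0, 0⟩))))
    (.s0
    (.leaf (.box ⟨168, 3, -512, 17, 13, 83, 218619, 0, 0, 0, 0, 0, 0⟩ ⟨0, 0, 0, 0, 0, 0, 184492, 0, 0, 0, 0, 0, 0⟩ ⟨0, 0, 0, 0, 0, 0, 184492, 0, 0, 0, 0, 0, 0⟩ ⟨0, 0, 0, 0, 0, 0, 159581, 0, 0, 0, 0, 0, 0⟩ ⟨0, 0, 0, 0, 0, 0, 159581, 0, 0, 0, 0, 0, 0⟩ ⟨143, 10, -512, 33, 24, 92, 140596, 0, 0, 0, 0, 0, 0⟩))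
    (.s2
    (.leaf (.box ⟨153, 4, -512, 13, 12, 117, 389650, 0, 0, 0, 0, 0, 0⟩ ⟨0, 0, 0, 0, 0, 0, 311567, 0, 0, 0, 0, 0, 0⟩ ⟨0, 0, 0, 0, 0, 0, 311567, 0, 0, 0, 0, 0, 0⟩ ⟨0, 0, 0, 0, 0, 0, 259554, 0, 0, 0, 0, 0, 0⟩ ⟨0, 0, 0, 0, 0, 0, 259554, 0, 0, 0, 0, 0, 0⟩ ⟨167, 17, -512, 29, 22, 120, 222422, 0, 0, 0, 0, 0, 0⟩))
    (.s0
    (.leaf (.box ⟨107, 2, -512, 14, 8, 109, 388439, 0, 0, 0, 0, 0, 0⟩ ⟨0, 0, 0, 0, 0, 0, 322346, 0, 0, 0, 0, 0, 0⟩ ⟨0, 0, 0, 0, 0, 0, 322346, 0, 0, 0, 0, 0, 0⟩ ⟨0, 0, 0, 0, 0, 0, 275474, 0, 0, 0, 0, 0, 0⟩ ⟨0, 0, 0, 0, 0, 0, 275474, 0, 0, 0, 0, 0, 0⟩ ⟨180, 8, -512, 27, 13, 112, 240502, 0, 0, 0, 0, 0, 0⟩))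
    (.s2
    (.leaf (.box ⟨96, 3, -512, 12, 7, 131, 526027, 0, 0, 0, 0, 0, 0⟩ ⟨0, 0, 0, 0, 0, 0, 429135, 0, 0, 0, 0, 0, 0⟩ ⟨0, 0, 0, 0, 0, 0, 429135, 0, 0, 0, 0, 0, 0⟩ ⟨0, 0, 0, 0, 0, 0, 362384, 0, 0, 0, 0, 0, 0⟩ ⟨0, 0, 0, 0, 0, 0, 362384, 0, 0, 0, 0, 0, 0⟩ ⟨173, 11, -512, 25, 11, 131, 313604, 0, 0, 0, 0, 0, 0⟩))
    (.s1
    (.leaf (.box ⟨122, 2, -512, 8, 7, 141, 606362, 0, 0, 0, 0, 0, 0⟩ ⟨0, 0, 0, 0, 0, 0, 486620, 0, 0, 0, 0, 0, 0⟩ ⟨0, 0, 0, 0, 0, 0, 486620, 0, 0, 0, 0, 0, 0⟩ ⟨0, 0, 0, 0, 0, 0, 406371, 0, 0, 0, 0, 0, 0⟩ ⟨0, 0, 0, 0, 0, 0, 406371, 0, 0, 0, 0, 0, 0⟩ ⟨224, 8, -512, 18, 15, 151, 348843, 0, 0, 0, 0, 0, 0⟩))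
    (.s0
    (.leaf (.box ⟨77, 1, -512, 6, 2, 132, 542268, 0, 0, 0, 0, 0, 0⟩ ⟨0, 0, 0, 0, 0, 0, 448274, 0, 0, 0, 0, 0, 0⟩ ⟨0, 0, 0, 0, 0, 0, 448274, 0, 0, 0, 0, 0, 0⟩ ⟨0, 0, 0, 0, 0, 0, 382051, 0, 0, 0, 0, 0, 0⟩ ⟨0, 0, 0, 0, 0, 0, 382051, 0, 0, 0, 0, 0, 0⟩ ⟨97, 2, -512, 10, 3, 125, 332875, 0, 0, 0, 0, 0, 0⟩))
    (.leaf (.box ⟨305, 1, -1811, 6, 1, 529, 2565958, 0, 0, 0, 0, 0, 0⟩ ⟨95, 1, -512, 9, 1, 147, 528682, 0, 0, 0, 0, 0, 0⟩ ⟨95, 1, -512, 9, 1, 147, 528682, 0, 0, 0, 0, 0, 0⟩ ⟨102, 2, -512, 9, 1, 143, 436867, 0, 0, 0, 0, 0, 0⟩ ⟨102, 2, -512, 9, 1, 143, 436867, 0, 0, 0, 0, 0, 0⟩ ⟨114, 2, -512, 7, 0, 138, 689076, 0, 0, 0, 0, 0, 0⟩))))))))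

/-- A piece of the tree. -/
noncomputable def tree17 : Tree LeafX :=
  .leaf (.skip 0 8)

/-- A piece of the tree. -/
noncomputable def tree18 : Tree LeafX :=
  .leaf (.box ⟨151, 4, -512, 14, 6, 164, 737157, 0, 0, 0, 0, 0, 0⟩ ⟨0, 0, 0, 0, 0, 0, 560084, 0, 0, 0, 0, 0, 0⟩ ⟨0, 0, 0, 0, 0, 0, 560084, 0, 0, 0, 0, 0, 0⟩ ⟨0, 0, 0, 0, 0, 0, 451604, 0, 0, 0, 0, 0, 0⟩ ⟨0, 0, 0, 0, 0, 0, 451604, 0, 0, 0, 0, 0, 0⟩ ⟨224, 22, -512, 32, 9, 157, 378327, 0, 0, 0, 0, 0, 0⟩)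

/-- A piece of the tree. -/
noncomputable def tree19 : Tree LeafX :=
  .s0
    (.leaf (.box ⟨113, 3, -512, 13, 5, 161, 711867, 0, 0, 0, 0, 0, 0⟩ ⟨0, 0, 0, 0, 0, 0, 571108, 0, 0, 0, 0, 0, 0⟩ ⟨0, 0, 0, 0, 0, 0, 571108, 0, 0, 0, 0, 0, 0⟩ ⟨0, 0, 0, 0, 0, 0, 476824, 0, 0, 0, 0, 0, 0⟩ ⟨0, 0, 0, 0, 0, 0, 476824, 0, 0, 0, 0, 0, 0⟩ ⟨225, 14, -512, 28, 7, 158, 409259, 0, 0, 0, 0, 0, 0⟩))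
    (.s0
    (.leaf (.box ⟨95, 4, -512, 13, 2, 187, 956894, 0, 0, 0, 0, 0, 0⟩ ⟨0, 0, 0, 0, 0, 0, 755240, 0, 0, 0, 0, 0, 0⟩ ⟨0, 0, 0, 0, 0, 0, 755240, 0, 0, 0, 0, 0, 0⟩ ⟨0, 0, 0, 0, 0, 0, 623785, 0, 0, 0, 0, 0, 0⟩ ⟨0, 0, 0, 0, 0, 0, 623785, 0, 0, 0, 0, 0, 0⟩ ⟨241, 15, -512, 27, 4, 185, 531306, 0, 0, 0, 0, 0, 0⟩))
    (.s0
    (.s1
    (.leaf (.skip 0 8))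
    (.leaf (.box ⟨245, 1, -1606, 6, -2, 640, 4713263, 0, 0, 0, 0, 0, 0⟩ ⟨92, 2, -512, 9, -3, 200, 929257, 0, 0, 0, 0, 0, 0⟩ ⟨92, 2, -512, 9, -3, 200, 929257, 0, 0, 0, 0, 0, 0⟩ ⟨106, 4, -512, 11, -4, 194, 711121, 0, 0, 0, 0, 0, 0⟩ ⟨106, 4, -512, 11, -4, 194, 711121, 0, 0, 0, 0, 0, 0⟩ ⟨136, 4, -512, 8, -3, 186, 1005884, 0, 0, 0, 0, 0, 0⟩)))
    (.s2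
    (.leaf (.box ⟨72, 3, -512, 11, 1, 206, 1190135, 0, 0, 0, 0, 0, 0⟩ ⟨0, 0, 0, 0, 0, 0, 926549, 0, 0, 0, 0, 0, 0⟩ ⟨0, 0, 0, 0, 0, 0, 926549, 0, 0, 0, 0, 0, 0⟩ ⟨0, 0, 0, 0, 0, 0, 758549, 0, 0, 0, 0, 0, 0⟩ ⟨0, 0, 0, 0, 0, 0, 758549, 0, 0, 0, 0, 0, 0⟩ ⟨193, 16, -512, 25, 1, 203, 642120, 0, 0, 0, 0, 0, 0⟩))
    (.leaf (.box ⟨172, 2, -1068, 6, 0, 465, 5063298, 0, 0, 0, 0, 0, 50869178211⟩ ⟨91, 5, -512, 15, 0, 224, 993645, 0, 0, 0, 0, 0, 0⟩ ⟨91, 5, -512, 15, 0, 224, 993645, 0, 0, 0, 0, 0, 0⟩ ⟨145, 9, -512, 21, 0, 225, 767304, 0, 0, 0, 0, 0, 0⟩ ⟨145, 9, -512, 21, 0, 225, 767304, 0, 0, 0, 0, 0, 0⟩ ⟨253, 10, -512, 17, 0, 226, 1099070, 0, 0, 0, 0, 0, 0⟩)))))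

/-- A piece of the tree. -/
noncomputable def tree20 : Tree LeafX :=
  .s0
    (.leaf (.box ⟨155, 3, -512, 10, 6, 182, 810330, 0, 0, 0, 0, 0, 11609760936⟩ ⟨0, 0, 0, 0, 0, 0, 639959, 0, 0, 0, 0, 0, 0⟩ ⟨0, 0, 0, 0, 0, 0, 639959, 0, 0, 0, 0, 0, 0⟩ ⟨0, 0, 0, 0, 0, 0, 528782, 0, 0, 0, 0, 0, 0⟩ ⟨0, 0, 0, 0, 0, 0, 528782, 0, 0, 0, 0, 0, 0⟩ ⟨344, 12, -512, 23, 14, 205, 450516, 0, 0, 0, 0, 0, 0⟩))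
    (.leaf (.skip 0 8))

/-- A piece of the tree. -/
noncomputable def tree21 : Tree LeafX :=
  .s2
    (.s0
    (.leaf (.box ⟨75, 1, -528, 6, 0, 169, 727703, 0, 0, 0, 0, 0, 0⟩ ⟨0, 0, 0, 0, 0, 0, 591780, 0, 0, 0, 0, 0, 0⟩ ⟨0, 0, 0, 0, 0, 0, 591780, 0, 0, 0, 0, 0, 0⟩ ⟨0, 0, 0, 0, 0, 0, 498641, 0, 0, 0, 0, 0, 0⟩ ⟨0, 0, 0, 0, 0, 0, 498641, 0, 0, 0, 0, 0, 0⟩ ⟨106, 3, -512, 10, -1, 151, 430833, 0, 0, 0, 0, 0, 0⟩))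
    (.s1
    (.leaf (.box ⟨105, 1, -643, 6, 0, 233, 877848, 0, 0, 0, 0, 0, 0⟩ ⟨0, 0, 0, 0, 0, 0, 698759, 0, 0, 0, 0, 0, 0⟩ ⟨0, 0, 0, 0, 0, 0, 698759, 0, 0, 0, 0, 0, 0⟩ ⟨0, 0, 0, 0, 0, 0, 580360, 0, 0, 0, 0, 0, 0⟩ ⟨0, 0, 0, 0, 0, 0, 580360, 0, 0, 0, 0, 0, 0⟩ ⟨109, 3, -512, 8, -1, 176, 496271, 0, 0, 0, 0, 0, 0⟩))
    (.leaf (.box ⟨101, 1, -677, 6, -4, 246, 837064, 0, 0, 0, 0, 0, 0⟩ ⟨0, 0, 0, 0, 0, 0, 676687, 0, 0, 0, 0, 0, 0⟩ ⟨0, 0, 0, 0, 0, 0, 676687, 0, 0, 0, 0, 0, 0⟩ ⟨0, 0, 0, 0, 0, 0, 567883, 0, 0, 0, 0, 0, 0⟩ ⟨0, 0, 0, 0, 0, 0, 567883, 0, 0, 0, 0, 0, 0⟩ ⟨79, 2, -512, 7, -6, 163, 489221, 0, 0, 0, 0, 0, 0⟩))))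
    (.s0
    (.s1
    (.leaf (.box ⟨116, 1, -710, 6, 0, 246, 762805, 0, 0, 0, 0, 0, 0⟩ ⟨0, 0, 0, 0, 0, 0, 616373, 0, 0, 0, 0, 0, 0⟩ ⟨0, 0, 0, 0, 0, 0, 616373, 0, 0, 0, 0, 0, 0⟩ ⟨0, 0, 0, 0, 0, 0, 517106, 0, 0, 0, 0, 0, 0⟩ ⟨0, 0, 0, 0, 0, 0, 517106, 0, 0, 0, 0, 0, 0⟩ ⟨113, 3, -512, 8, -1, 167, 445378, 0, 0, 0, 0, 0, 0⟩))
    (.leaf (.box ⟨103, 1, -701, 6, -4, 241, 737781, 0, 0, 0, 0, 0, 0⟩ ⟨0, 0, 0, 0, 0, 0, 604392, 0, 0, 0, 0, 0, 0⟩ ⟨0, 0, 0, 0, 0, 0, 604392, 0, 0, 0, 0, 0, 0⟩ ⟨0, 0, 0, 0, 0, 0, 511851, 0, 0, 0, 0, 0, 0⟩ ⟨0, 0, 0, 0, 0, 0, 511851, 0, 0, 0, 0, 0, 0⟩ ⟨77, 1, -512, 7, -5, 154, 443885, 0, 0, 0, 0, 0, 0⟩)))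
    (.s1
    (.s2
    (.leaf (.box ⟨103, 1, -670, 6, -2, 261, 878385, 0, 0, 0, 0, 0, 0⟩ ⟨0, 0, 0, 0, 0, 0, 703353, 0, 0, 0, 0, 0, 0⟩ ⟨0, 0, 0, 0, 0, 0, 703353, 0, 0, 0, 0, 0, 0⟩ ⟨0, 0, 0, 0, 0, 0, 586486, 0, 0, 0, 0, 0, 0⟩ ⟨0, 0, 0, 0, 0, 0, 586486, 0, 0, 0, 0, 0, 0⟩ ⟨110, 3, -512, 8, -3, 189, 502922, 0, 0, 0, 0, 0, 0⟩))
    (.s3
    (.leaf (.box ⟨105, 1, -785, 6, -4, 329, 878817, 0, 0, 0, 0, 0, 0⟩ ⟨0, 0, 0, 0, 0, 0, 705944, 0, 0, 0, 0, 0, 0⟩ ⟨0, 0, 0, 0, 0, 0, 705944, 0, 0, 0, 0, 0, 0⟩ ⟨0, 0, 0, 0, 0, 0, 589903, 0, 0, 0, 0, 0, 0⟩ ⟨0, 0, 0, 0, 0, 0, 589903, 0, 0, 0, 0, 0, 0⟩ ⟨117, 3, -512, 8, -5, 204, 506625, 0, 0, 0, 0, 0, 0⟩))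
    (.leaf (.box ⟨504, 1, -3636, 6, -2, 1482, 5933890, 0, 0, 0, 0, 0, 0⟩ ⟨101, 1, -662, 6, -3, 266, 841758, 0, 0, 0, 0, 0, 0⟩ ⟨101, 1, -662, 6, -3, 266, 841758, 0, 0, 0, 0, 0, 0⟩ ⟨95, 2, -561, 6, -3, 222, 656669, 0, 0, 0, 0, 0, 0⟩ ⟨95, 2, -561, 6, -3, 222, 656669, 0, 0, 0, 0, 0, 0⟩ ⟨172, 2, -839, 6, -3, 324, 1004559, 0, 0, 0, 0, 0, 0⟩))))
    (.s2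
    (.leaf (.box ⟨96, 1, -707, 6, -7, 274, 848389, 0, 0, 0, 0, 0, 0⟩ ⟨0, 0, 0, 0, 0, 0, 689741, 0, 0, 0, 0, 0, 0⟩ ⟨0, 0, 0, 0, 0, 0, 689741, 0, 0, 0, 0, 0, 0⟩ ⟨0, 0, 0, 0, 0, 0, 581080, 0, 0, 0, 0, 0, 0⟩ ⟨0, 0, 0, 0, 0, 0, 581080, 0, 0, 0, 0, 0, 0⟩ ⟨77, 2, -512, 7, -8, 172, 501995, 0, 0, 0, 0, 0, 0⟩))
    (.leaf (.box ⟨102, 1, -705, 6, -8, 289, 853750, 0, 0, 0, 0, 0, 0⟩ ⟨0, 0, 0, 0, 0, 0, 696148, 0, 0, 0, 0, 0, 0⟩ ⟨0, 0, 0, 0, 0, 0, 696148, 0, 0, 0, 0, 0, 0⟩ ⟨0, 0, 0, 0, 0, 0, 587665, 0, 0, 0, 0, 0, 0⟩ ⟨0, 0, 0, 0, 0, 0, 587665, 0, 0, 0, 0, 0, 0⟩ ⟨84, 2, -512, 7, -10, 179, 508434, 0, 0, 0, 0, 0, 0⟩)))))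

/-- A piece of the tree. -/
noncomputable def tree22 : Tree LeafX :=
  .s1
    (.s0
    (.leaf (.box ⟨103, 1, -593, 6, -2, 245, 1010763, 0, 0, 0, 0, 0, 15634995919⟩ ⟨0, 0, 0, 0, 0, 0, 797726, 0, 0, 0, 0, 0, 0⟩ ⟨0, 0, 0, 0, 0, 0, 797726, 0, 0, 0, 0, 0, 0⟩ ⟨0, 0, 0, 0, 0, 0, 658859, 0, 0, 0, 0, 0, 0⟩ ⟨0, 0, 0, 0, 0, 0, 658859, 0, 0, 0, 0, 0, 0⟩ ⟨131, 4, -512, 9, -4, 202, 561171, 0, 0, 0, 0, 0, 0⟩))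
    (.leaf (.skip 0 8)))
    (.s0
    (.s2
    (.leaf (.box ⟨363, 1, -2719, 6, -6, 1099, 4046133, 0, 0, 0, 0, 0, 0⟩ ⟨74, 1, -552, 6, -6, 216, 810719, 0, 0, 0, 0, 0, 0⟩ ⟨74, 1, -552, 6, -6, 216, 810719, 0, 0, 0, 0, 0, 0⟩ ⟨71, 2, -512, 7, -7, 192, 645108, 0, 0, 0, 0, 0, 0⟩ ⟨71, 2, -512, 7, -7, 192, 645108, 0, 0, 0, 0, 0, 0⟩ ⟨123, 2, -804, 6, -8, 284, 965734, 0, 0, 0, 0, 0, 0⟩))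
    (.s0
    (.leaf (.box ⟨85, 1, -845, 6, -8, 346, 968222, 0, 0, 0, 0, 0, 0⟩ ⟨0, 0, 0, 0, 0, 0, 778736, 0, 0, 0, 0, 0, 0⟩ ⟨0, 0, 0, 0, 0, 0, 778736, 0, 0, 0, 0, 0, 0⟩ ⟨0, 0, 0, 0, 0, 0, 651277, 0, 0, 0, 0, 0, 0⟩ ⟨0, 0, 0, 0, 0, 0, 651277, 0, 0, 0, 0, 0, 0⟩ ⟨65, 2, -512, 6, -9, 182, 559673, 0, 0, 0, 0, 0, 0⟩))
    (.s0
    (.leaf (.box ⟨231, 1, -2777, 6, -8, 1201, 4322209, 0, 0, 0, 0, 0, 0⟩ ⟨74, 1, -764, 6, -10, 319, 868276, 0, 0, 0, 0, 0, 0⟩ ⟨74, 1, -764, 6, -10, 319, 868276, 0, 0, 0, 0, 0, 0⟩ ⟨58, 1, -559, 6, -10, 223, 692822, 0, 0, 0, 0, 0, 0⟩ ⟨58, 1, -559, 6, -10, 223, 692822, 0, 0, 0, 0, 0, 0⟩ ⟨115, 2, -978, 6, -11, 365, 1031203, 0, 0, 0, 0, 0, 0⟩))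
    (.leaf (.box ⟨227, 1, -2585, 6, -8, 1159, 4478387, 0, 0, 0, 0, 0, 139406251027⟩ ⟨73, 1, -765, 6, -11, 331, 897828, 0, 0, 0, 0, 0, 0⟩ ⟨73, 1, -765, 6, -11, 331, 897828, 0, 0, 0, 0, 0, 0⟩ ⟨66, 2, -618, 6, -12, 255, 714382, 0, 0, 0, 0, 0, 0⟩ ⟨66, 2, -618, 6, -12, 255, 714382, 0, 0, 0, 0, 0, 0⟩ ⟨110, 2, -895, 6, -11, 346, 1058549, 0, 0, 0, 0, 0, 0⟩)))))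
    (.s1
    (.leaf (.skip 0 8))
    (.s2
    (.s3
    (.leaf (.box ⟨491, 1, -4142, 6, -16, 1947, 4674741, 0, 0, 0, 0, 0, 422764419723⟩ ⟨92, 1, -756, 6, -15, 340, 928330, 0, 0, 0, 0, 0, 0⟩ ⟨92, 1, -756, 6, -15, 340, 928330, 0, 0, 0, 0, 0, 0⟩ ⟨82, 2, -668, 6, -16, 284, 730836, 0, 0, 0, 0, 0, 0⟩ ⟨82, 2, -668, 6, -16, 284, 730836, 0, 0, 0, 0, 0, 0⟩ ⟨131, 2, -1042, 6, -17, 410, 1080503, 0, 0, 0, 0, 0, 0⟩))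
    (.leaf (.box ⟨134, 1, -1105, 6, -13, 501, 1299616, 0, 0, 0, 0, 0, 34226391652⟩ ⟨0, 0, 0, 0, 0, 0, 1009690, 0, 0, 0, 0, 0, 0⟩ ⟨0, 0, 0, 0, 0, 0, 1009690, 0, 0, 0, 0, 0, 0⟩ ⟨0, 0, 0, 0, 0, 0, 825527, 0, 0, 0, 0, 0, 0⟩ ⟨0, 0, 0, 0, 0, 0, 825527, 0, 0, 0, 0, 0, 0⟩ ⟨83, 2, -674, 6, -15, 261, 698181, 0, 0, 0, 0, 0, 0⟩)))
    (.s3
    (.leaf (.box ⟨361, 1, -2771, 6, -13, 1385, 4639114, 0, 0, 0, 0, 0, 195661957411⟩ ⟨100, 1, -764, 6, -17, 364, 927880, 0, 0, 0, 0, 0, 0⟩ ⟨100, 1, -764, 6, -17, 364, 927880, 0, 0, 0, 0, 0, 0⟩ ⟨88, 2, -655, 6, -18, 294, 736478, 0, 0, 0, 0, 0, 0⟩ ⟨88, 2, -655, 6, -18, 294, 736478, 0, 0, 0, 0, 0, 0⟩ ⟨140, 2, -996, 6, -18, 412, 1096587, 0, 0, 0, 0, 0, 0⟩))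
    (.leaf (.box ⟨549, 1, -4126, 6, -11, 2004, 7514508, 0, 0, 0, 0, 0, 549931655438⟩ ⟨110, 1, -808, 6, -14, 376, 1060253, 0, 0, 0, 0, 0, 0⟩ ⟨110, 1, -808, 6, -14, 376, 1060253, 0, 0, 0, 0, 0, 0⟩ ⟨86, 1, -620, 6, -14, 273, 817566, 0, 0, 0, 0, 0, 0⟩ ⟨86, 1, -620, 6, -14, 273, 817566, 0, 0, 0, 0, 0, 0⟩ ⟨141, 2, -1021, 6, -15, 419, 1243845, 0, 0, 0, 0, 0, 0⟩))))))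

/-- A piece of the tree. -/
noncomputable def tree23 : Tree LeafX :=
  .s0
    (.s2
    (.s1
    (.leaf (.box ⟨390, 1, -2434, 6, -4, 1103, 4261881, 0, 0, 0, 0, 0, 148854103485⟩ ⟨87, 2, -512, 7, -4, 230, 843083, 0, 0, 0, 0, 0, 0⟩ ⟨87, 2, -512, 7, -4, 230, 843083, 0, 0, 0, 0, 0, 0⟩ ⟨106, 2, -512, 7, -5, 227, 663277, 0, 0, 0, 0, 0, 0⟩ ⟨106, 2, -512, 7, -5, 227, 663277, 0, 0, 0, 0, 0, 0⟩ ⟨160, 2, -603, 6, -4, 263, 971999, 0, 0, 0, 0, 0, 0⟩))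
    (.s0
    (.leaf (.box ⟨225, 1, -2199, 6, -7, 955, 4003314, 0, 0, 0, 0, 0, 0⟩ ⟨77, 1, -690, 6, -10, 288, 812693, 0, 0, 0, 0, 0, 0⟩ ⟨77, 1, -690, 6, -10, 288, 812693, 0, 0, 0, 0, 0, 0⟩ ⟨66, 1, -512, 6, -9, 203, 657789, 0, 0, 0, 0, 0, 0⟩ ⟨66, 1, -512, 6, -9, 203, 657789, 0, 0, 0, 0, 0, 0⟩ ⟨126, 2, -929, 6, -11, 346, 989332, 0, 0, 0, 0, 0, 0⟩))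
    (.s3
    (.leaf (.box ⟨82, 1, -875, 6, -14, 416, 1040767, 0, 0, 0, 0, 0, 0⟩ ⟨0, 0, 0, 0, 0, 0, 836370, 0, 0, 0, 0, 0, 0⟩ ⟨0, 0, 0, 0, 0, 0, 836370, 0, 0, 0, 0, 0, 0⟩ ⟨0, 0, 0, 0, 0, 0, 699078, 0, 0, 0, 0, 0, 0⟩ ⟨0, 0, 0, 0, 0, 0, 699078, 0, 0, 0, 0, 0, 0⟩ ⟨83, 2, -564, 6, -15, 226, 600503, 0, 0, 0, 0, 0, 0⟩))
    (.leaf (.box ⟨540, 1, -5814, 6, -12, 2696, 6956750, 0, 0, 0, 0, 0, 603338648298⟩ ⟨89, 1, -829, 6, -12, 370, 992317, 0, 0, 0, 0, 0, 0⟩ ⟨89, 1, -829, 6, -12, 370, 992317, 0, 0, 0, 0, 0, 0⟩ ⟨78, 1, -648, 6, -12, 276, 776135, 0, 0, 0, 0, 0, 0⟩ ⟨78, 1, -648, 6, -12, 276, 776135, 0, 0, 0, 0, 0, 0⟩ ⟨146, 2, -1039, 6, -12, 415, 1183948, 0, 0, 0, 0, 0, 0⟩)))))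
    (.s1
    (.s0
    (.leaf (.box ⟨90, 1, -730, 6, -5, 342, 1005967, 0, 0, 0, 0, 0, 6095922793⟩ ⟨0, 0, 0, 0, 0, 0, 801242, 0, 0, 0, 0, 0, 0⟩ ⟨0, 0, 0, 0, 0, 0, 801242, 0, 0, 0, 0, 0, 0⟩ ⟨0, 0, 0, 0, 0, 0, 665754, 0, 0, 0, 0, 0, 0⟩ ⟨0, 0, 0, 0, 0, 0, 665754, 0, 0, 0, 0, 0, 0⟩ ⟨124, 3, -512, 8, -7, 230, 569459, 0, 0, 0, 0, 0, 0⟩))
    (.leaf (.skip 0 8)))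
    (.s0
    (.leaf (.box ⟨86, 1, -783, 6, -12, 363, 976453, 0, 0, 0, 0, 0, 0⟩ ⟨0, 0, 0, 0, 0, 0, 790292, 0, 0, 0, 0, 0, 0⟩ ⟨0, 0, 0, 0, 0, 0, 790292, 0, 0, 0, 0, 0, 0⟩ ⟨0, 0, 0, 0, 0, 0, 663748, 0, 0, 0, 0, 0, 0⟩ ⟨0, 0, 0, 0, 0, 0, 663748, 0, 0, 0, 0, 0, 0⟩ ⟨77, 2, -512, 7, -12, 200, 572135, 0, 0, 0, 0, 0, 0⟩))
    (.leaf (.box ⟨89, 1, -768, 6, -14, 389, 1043128, 0, 0, 0, 0, 0, 0⟩ ⟨0, 0, 0, 0, 0, 0, 841068, 0, 0, 0, 0, 0, 0⟩ ⟨0, 0, 0, 0, 0, 0, 841068, 0, 0, 0, 0, 0, 0⟩ ⟨0, 0, 0, 0, 0, 0, 704585, 0, 0, 0, 0, 0, 0⟩ ⟨0, 0, 0, 0, 0, 0, 704585, 0, 0, 0, 0, 0, 0⟩ ⟨90, 2, -512, 7, -15, 217, 606213, 0, 0, 0, 0, 0, 0⟩)))))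
    (.s1
    (.leaf (.skip 0 8))
    (.s1
    (.leaf (.skip 0 8))
    (.leaf (.box ⟨596, 1, -2785, 6, -16, 1549, 4576542, 0, 0, 0, 0, 0, 652923135501⟩ ⟨114, 1, -550, 6, -15, 290, 927795, 0, 0, 0, 0, 0, 0⟩ ⟨114, 1, -550, 6, -15, 290, 927795, 0, 0, 0, 0, 0, 0⟩ ⟨106, 2, -512, 7, -17, 253, 742406, 0, 0, 0, 0, 0, 0⟩ ⟨106, 2, -512, 7, -17, 253, 742406, 0, 0, 0, 0, 0, 0⟩ ⟨168, 2, -792, 6, -17, 359, 1112777, 0, 0, 0, 0, 0, 0⟩))))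

/-- A piece of the tree. -/
noncomputable def tree24 : Tree LeafX :=
  .leaf (.skip 0 8)

/-- A piece of the tree. -/
noncomputable def tree25 : Tree LeafX :=
  .leaf (.skip 0 8)

/-- A piece of the tree. -/
noncomputable def tree26 : Tree LeafX :=
  .s2
    (.s0
    (.s0
    (.s2
    (.leaf (.box ⟨97, 2, -512, 9, 11, 74, 295484, 0, 0, 0, 0, 0, 0⟩ ⟨0, 0, 0, 0, 0, 0, 245062, 0, 0, 0, 0, 0, 0⟩ ⟨0, 0, 0, 0, 0, 0, 245062, 0, 0, 0, 0, 0, 0⟩ ⟨0, 0, 0, 0, 0, 0, 209339, 0, 0, 0, 0, 0, 0⟩ ⟨0, 0, 0, 0, 0, 0, 209339, 0, 0, 0, 0, 0, 0⟩ ⟨161, 5, -512, 19, 24, 89, 182706, 0, 0, 0, 0, 0, 0⟩))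
    (.s0
    (.leaf (.box ⟨81, 1, -512, 7, 9, 73, 296451, 0, 0, 0, 0, 0, 0⟩ ⟨0, 0, 0, 0, 0, 0, 248901, 0, 0, 0, 0, 0, 0⟩ ⟨0, 0, 0, 0, 0, 0, 248901, 0, 0, 0, 0, 0, 0⟩ ⟨0, 0, 0, 0, 0, 0, 214496, 0, 0, 0, 0, 0, 0⟩ ⟨0, 0, 0, 0, 0, 0, 214496, 0, 0, 0, 0, 0, 0⟩ ⟨148, 1, -512, 14, 18, 88, 188447, 0, 0, 0, 0, 0, 0⟩))
    (.leaf (.box ⟨257, 1, -1440, 6, 7, 233, 1347520, 0, 0, 0, 0, 0, 0⟩ ⟨110, 1, -512, 9, 12, 87, 288586, 0, 0, 0, 0, 0, 0⟩ ⟨110, 1, -512, 9, 12, 87, 288586, 0, 0, 0, 0, 0, 0⟩ ⟨137, 2, -512, 13, 15, 93, 243068, 0, 0, 0, 0, 0, 0⟩ ⟨137, 2, -512, 13, 15, 93, 243068, 0, 0, 0, 0, 0, 0⟩ ⟨185, 1, -512, 9, 10, 100, 399070, 0, 0, 0, 0, 0, 0⟩))))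
    (.s2
    (.leaf (.box ⟨111, 2, -512, 8, 13, 93, 390507, 0, 0, 0, 0, 0, 0⟩ ⟨0, 0, 0, 0, 0, 0, 319530, 0, 0, 0, 0, 0, 0⟩ ⟨0, 0, 0, 0, 0, 0, 319530, 0, 0, 0, 0, 0, 0⟩ ⟨0, 0, 0, 0, 0, 0, 270386, 0, 0, 0, 0, 0, 0⟩ ⟨0, 0, 0, 0, 0, 0, 270386, 0, 0, 0, 0, 0, 0⟩ ⟨240, 8, -512, 24, 28, 114, 234343, 0, 0, 0, 0, 0, 0⟩))
    (.s2
    (.leaf (.box ⟨444, 1, -1727, 6, 10, 337, 1563105, 0, 0, 0, 0, 0, 0⟩ ⟨141, 2, -512, 9, 15, 105, 328943, 0, 0, 0, 0, 0, 0⟩ ⟨141, 2, -512, 9, 15, 105, 328943, 0, 0, 0, 0, 0, 0⟩ ⟨187, 3, -512, 14, 19, 113, 275109, 0, 0, 0, 0, 0, 0⟩ ⟨187, 3, -512, 14, 19, 113, 275109, 0, 0, 0, 0, 0, 0⟩ ⟨276, 3, -512, 11, 13, 124, 445363, 0, 0, 0, 0, 0, 0⟩))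
    (.leaf (.box ⟨510, 1, -1669, 6, 9, 354, 1537755, 0, 0, 0, 0, 0, 0⟩ ⟨181, 1, -512, 11, 13, 115, 328580, 0, 0, 0, 0, 0, 0⟩ ⟨181, 1, -512, 11, 13, 115, 328580, 0, 0, 0, 0, 0, 0⟩ ⟨240, 2, -512, 15, 17, 123, 278546, 0, 0, 0, 0, 0, 0⟩ ⟨240, 2, -512, 15, 17, 123, 278546, 0, 0, 0, 0, 0, 0⟩ ⟨343, 2, -512, 11, 12, 137, 460794, 0, 0, 0, 0, 0, 0⟩)))))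
    (.s0
    (.s2
    (.leaf (.box ⟨145, 2, -512, 11, 14, 121, 516442, 0, 0, 0, 0, 0, 0⟩ ⟨0, 0, 0, 0, 0, 0, 416389, 0, 0, 0, 0, 0, 0⟩ ⟨0, 0, 0, 0, 0, 0, 416389, 0, 0, 0, 0, 0, 0⟩ ⟨0, 0, 0, 0, 0, 0, 348812, 0, 0, 0, 0, 0, 0⟩ ⟨0, 0, 0, 0, 0, 0, 348812, 0, 0, 0, 0, 0, 0⟩ ⟨404, 15, -512, 34, 36, 162, 300106, 0, 0, 0, 0, 0, 0⟩))
    (.s2
    (.leaf (.box ⟨173, 2, -512, 11, 13, 139, 501980, 0, 0, 0, 0, 0, 0⟩ ⟨0, 0, 0, 0, 0, 0, 412460, 0, 0, 0, 0, 0, 0⟩ ⟨0, 0, 0, 0, 0, 0, 412460, 0, 0, 0, 0, 0, 0⟩ ⟨0, 0, 0, 0, 0, 0, 350036, 0, 0, 0, 0, 0, 0⟩ ⟨0, 0, 0, 0, 0, 0, 350036, 0, 0, 0, 0, 0, 0⟩ ⟨512, 12, -468, 36, 34, 187, 304023, 0, 0, 0, 0, 0, 0⟩))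
    (.leaf (.box ⟨221, 2, -512, 13, 13, 166, 495316, 0, 0, 0, 0, 0, 0⟩ ⟨0, 0, 0, 0, 0, 0, 411321, 0, 0, 0, 0, 0, 0⟩ ⟨0, 0, 0, 0, 0, 0, 411321, 0, 0, 0, 0, 0, 0⟩ ⟨0, 0, 0, 0, 0, 0, 351683, 0, 0, 0, 0, 0, 0⟩ ⟨0, 0, 0, 0, 0, 0, 351683, 0, 0, 0, 0, 0, 0⟩ ⟨512, 8, -299, 31, 22, 157, 307149, 0, 0, 0, 0, 0, 0⟩))))
    (.leaf (.skip 0 8))))
    (.s2
    (.s0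
    (.s0
    (.s2
    (.s1
    (.leaf (.box ⟨547, 0, -1940, 6, 9, 324, 1207526, 0, 0, 0, 0, 0, 0⟩ ⟨160, 0, -549, 6, 13, 97, 268249, 0, 0, 0, 0, 0, 0⟩ ⟨160, 0, -549, 6, 13, 97, 268249, 0, 0, 0, 0, 0, 0⟩ ⟨177, 0, -512, 7, 15, 97, 232684, 0, 0, 0, 0, 0, 0⟩ ⟨177, 0, -512, 7, 15, 97, 232684, 0, 0, 0, 0, 0, 0⟩ ⟨272, 0, -645, 6, 12, 134, 396545, 0, 0, 0, 0, 0, 0⟩))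
    (.leaf (.box ⟨710, 0, -2695, 6, 9, 450, 1173118, 0, 0, 0, 0, 0, 0⟩ ⟨163, 0, -640, 6, 10, 111, 255053, 0, 0, 0, 0, 0, 0⟩ ⟨163, 0, -640, 6, 10, 111, 255053, 0, 0, 0, 0, 0, 0⟩ ⟨147, 0, -519, 6, 10, 94, 222180, 0, 0, 0, 0, 0, 0⟩ ⟨147, 0, -519, 6, 10, 94, 222180, 0, 0, 0, 0, 0, 0⟩ ⟨288, 0, -917, 6, 11, 174, 381805, 0, 0, 0, 0, 0, 0⟩)))
    (.leaf (.box ⟨173, 0, -512, 6, 7, 95, 300638, 0, 0, 0, 0, 0, 0⟩ ⟨0, 0, 0, 0, 0, 0, 257075, 0, 0, 0, 0, 0, 0⟩ ⟨0, 0, 0, 0, 0, 0, 257075, 0, 0, 0, 0, 0, 0⟩ ⟨0, 0, 0, 0, 0, 0, 224539, 0, 0, 0, 0, 0, 0⟩ ⟨0, 0, 0, 0, 0, 0, 224539, 0, 0, 0, 0, 0, 0⟩ ⟨268, -1, -512, 12, 11, 108, 199313, 0, 0, 0, 0, 0, 0⟩)))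
    (.s2
    (.leaf (.box ⟨201, 1, -512, 10, 9, 124, 386462, 0, 0, 0, 0, 0, 0⟩ ⟨0, 0, 0, 0, 0, 0, 326536, 0, 0, 0, 0, 0, 0⟩ ⟨0, 0, 0, 0, 0, 0, 326536, 0, 0, 0, 0, 0, 0⟩ ⟨0, 0, 0, 0, 0, 0, 282699, 0, 0, 0, 0, 0, 0⟩ ⟨0, 0, 0, 0, 0, 0, 282699, 0, 0, 0, 0, 0, 0⟩ ⟨444, 2, -512, 22, 19, 155, 249239, 0, 0, 0, 0, 0, 0⟩))
    (.leaf (.box ⟨369, 0, -512, 13, 7, 157, 385958, 0, 0, 0, 0, 0, 0⟩ ⟨0, 0, 0, 0, 0, 0, 328844, 0, 0, 0, 0, 0, 0⟩ ⟨0, 0, 0, 0, 0, 0, 328844, 0, 0, 0, 0, 0, 0⟩ ⟨0, 0, 0, 0, 0, 0, 286454, 0, 0, 0, 0, 0, 0⟩ ⟨0, 0, 0, 0, 0, 0, 286454, 0, 0, 0, 0, 0, 0⟩ ⟨512, 0, -435, 20, 11, 156, 253744, 0, 0, 0, 0, 0, 0⟩))))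
    (.s0
    (.leaf (.box ⟨512, 1, -213, 17, 5, 130, 486245, 0, 0, 0, 0, 0, 0⟩ ⟨0, 0, 0, 0, 0, 0, 409335, 0, 0, 0, 0, 0, 0⟩ ⟨0, 0, 0, 0, 0, 0, 409335, 0, 0, 0, 0, 0, 0⟩ ⟨0, 0, 0, 0, 0, 0, 353432, 0, 0, 0, 0, 0, 0⟩ ⟨0, 0, 0, 0, 0, 0, 353432, 0, 0, 0, 0, 0, 0⟩ ⟨512, 3, -68, 25, 6, 92, 310963, 0, 0, 0, 0, 0, 0⟩))
    (.leaf (.skip 0 8))))
    (.s0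
    (.s2
    (.leaf (.box ⟨512, -1, -332, 13, 3, 104, 301949, 0, 0, 0, 0, 0, 0⟩ ⟨0, 0, 0, 0, 0, 0, 259798, 0, 0, 0, 0, 0, 0⟩ ⟨0, 0, 0, 0, 0, 0, 259798, 0, 0, 0, 0, 0, 0⟩ ⟨0, 0, 0, 0, 0, 0, 227973, 0, 0, 0, 0, 0, 0⟩ ⟨0, 0, 0, 0, 0, 0, 227973, 0, 0, 0, 0, 0, 0⟩ ⟨512, -2, -344, 17, 4, 107, 203094, 0, 0, 0, 0, 0, 0⟩))
    (.leaf (.skip 8 0)))
    (.leaf (.skip 8 0))))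

/-- A piece of the tree. -/
noncomputable def tree27 : Tree LeafX :=
  .s0
    (.s2
    (.leaf (.box ⟨99, 0, -512, 9, 7, 75, 230825, 0, 0, 0, 0, 0, 0⟩ ⟨0, 0, 0, 0, 0, 0, 199805, 0, 0, 0, 0, 0, 0⟩ ⟨0, 0, 0, 0, 0, 0, 199805, 0, 0, 0, 0, 0, 0⟩ ⟨0, 0, 0, 0, 0, 0, 176134, 0, 0, 0, 0, 0, 0⟩ ⟨0, 0, 0, 0, 0, 0, 176134, 0, 0, 0, 0, 0, 0⟩ ⟨106, 0, -512, 16, 11, 83, 157477, 0, 0, 0, 0, 0, 0⟩))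
    (.s2
    (.leaf (.box ⟨111, 0, -512, 8, 5, 78, 247670, 0, 0, 0, 0, 0, 0⟩ ⟨0, 0, 0, 0, 0, 0, 213885, 0, 0, 0, 0, 0, 0⟩ ⟨0, 0, 0, 0, 0, 0, 213885, 0, 0, 0, 0, 0, 0⟩ ⟨0, 0, 0, 0, 0, 0, 188211, 0, 0, 0, 0, 0, 0⟩ ⟨0, 0, 0, 0, 0, 0, 188211, 0, 0, 0, 0, 0, 0⟩ ⟨114, 0, -512, 12, 8, 84, 168039, 0, 0, 0, 0, 0, 0⟩))
    (.leaf (.box ⟨106, 0, -512, 6, 4, 80, 258674, 0, 0, 0, 0, 0, 0⟩ ⟨0, 0, 0, 0, 0, 0, 222850, 0, 0, 0, 0, 0, 0⟩ ⟨0, 0, 0, 0, 0, 0, 222850, 0, 0, 0, 0, 0, 0⟩ ⟨0, 0, 0, 0, 0, 0, 195741, 0, 0, 0, 0, 0, 0⟩ ⟨0, 0, 0, 0, 0, 0, 195741, 0, 0, 0, 0, 0, 0⟩ ⟨125, 0, -512, 10, 6, 85, 174512, 0, 0, 0, 0, 0, 0⟩))))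
    (.s2
    (.leaf (.box ⟨112, 1, -512, 10, 6, 94, 309365, 0, 0, 0, 0, 0, 0⟩ ⟨0, 0, 0, 0, 0, 0, 265056, 0, 0, 0, 0, 0, 0⟩ ⟨0, 0, 0, 0, 0, 0, 265056, 0, 0, 0, 0, 0, 0⟩ ⟨0, 0, 0, 0, 0, 0, 231849, 0, 0, 0, 0, 0, 0⟩ ⟨0, 0, 0, 0, 0, 0, 231849, 0, 0, 0, 0, 0, 0⟩ ⟨156, 2, -512, 18, 9, 98, 206036, 0, 0, 0, 0, 0, 0⟩))
    (.s2
    (.s1
    (.leaf (.box ⟨415, 0, -1792, 6, 5, 350, 1390140, 0, 0, 0, 0, 0, 0⟩ ⟨121, 1, -512, 7, 7, 101, 298412, 0, 0, 0, 0, 0, 0⟩ ⟨121, 1, -512, 7, 7, 101, 298412, 0, 0, 0, 0, 0, 0⟩ ⟨136, 1, -512, 8, 8, 103, 257946, 0, 0, 0, 0, 0, 0⟩ ⟨136, 1, -512, 8, 8, 103, 257946, 0, 0, 0, 0, 0, 0⟩ ⟨196, 1, -638, 6, 6, 132, 438465, 0, 0, 0, 0, 0, 0⟩))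
    (.leaf (.box ⟨137, 0, -678, 6, 3, 129, 331453, 0, 0, 0, 0, 0, 0⟩ ⟨0, 0, 0, 0, 0, 0, 284680, 0, 0, 0, 0, 0, 0⟩ ⟨0, 0, 0, 0, 0, 0, 284680, 0, 0, 0, 0, 0, 0⟩ ⟨0, 0, 0, 0, 0, 0, 249475, 0, 0, 0, 0, 0, 0⟩ ⟨0, 0, 0, 0, 0, 0, 249475, 0, 0, 0, 0, 0, 0⟩ ⟨95, 0, -541, 6, 4, 102, 222019, 0, 0, 0, 0, 0, 0⟩)))
    (.s1
    (.leaf (.box ⟨143, 0, -555, 6, 5, 116, 358352, 0, 0, 0, 0, 0, 0⟩ ⟨0, 0, 0, 0, 0, 0, 304293, 0, 0, 0, 0, 0, 0⟩ ⟨0, 0, 0, 0, 0, 0, 304293, 0, 0, 0, 0, 0, 0⟩ ⟨0, 0, 0, 0, 0, 0, 264406, 0, 0, 0, 0, 0, 0⟩ ⟨0, 0, 0, 0, 0, 0, 264406, 0, 0, 0, 0, 0, 0⟩ ⟨180, 1, -512, 10, 7, 110, 233764, 0, 0, 0, 0, 0, 0⟩))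
    (.leaf (.box ⟨160, 0, -718, 6, 2, 142, 345822, 0, 0, 0, 0, 0, 0⟩ ⟨0, 0, 0, 0, 0, 0, 296654, 0, 0, 0, 0, 0, 0⟩ ⟨0, 0, 0, 0, 0, 0, 296654, 0, 0, 0, 0, 0, 0⟩ ⟨0, 0, 0, 0, 0, 0, 259727, 0, 0, 0, 0, 0, 0⟩ ⟨0, 0, 0, 0, 0, 0, 259727, 0, 0, 0, 0, 0, 0⟩ ⟨108, 0, -581, 6, 3, 111, 230975, 0, 0, 0, 0, 0, 0⟩)))))

/-- A piece of the tree. -/
noncomputable def tree28 : Tree LeafX :=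
  .s2
    (.s0
    (.s0
    (.s1
    (.leaf (.box ⟨88, 1, -512, 7, 6, 113, 453772, 0, 0, 0, 0, 0, 0⟩ ⟨0, 0, 0, 0, 0, 0, 375474, 0, 0, 0, 0, 0, 0⟩ ⟨0, 0, 0, 0, 0, 0, 375474, 0, 0, 0, 0, 0, 0⟩ ⟨0, 0, 0, 0, 0, 0, 320220, 0, 0, 0, 0, 0, 0⟩ ⟨0, 0, 0, 0, 0, 0, 320220, 0, 0, 0, 0, 0, 0⟩ ⟨155, 3, -512, 14, 11, 120, 279142, 0, 0, 0, 0, 0, 0⟩))
    (.leaf (.box ⟨314, 0, -2003, 6, 2, 437, 1603790, 0, 0, 0, 0, 0, 0⟩ ⟨82, 0, -512, 7, 3, 111, 354856, 0, 0, 0, 0, 0, 0⟩ ⟨82, 0, -512, 7, 3, 111, 354856, 0, 0, 0, 0, 0, 0⟩ ⟨85, 0, -512, 8, 3, 109, 311760, 0, 0, 0, 0, 0, 0⟩ ⟨85, 0, -512, 8, 3, 109, 311760, 0, 0, 0, 0, 0, 0⟩ ⟨107, 0, -669, 6, 2, 141, 521516, 0, 0, 0, 0, 0, 0⟩)))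
    (.s1
    (.leaf (.box ⟨278, 1, -1409, 6, 4, 358, 2143048, 0, 0, 0, 0, 0, 0⟩ ⟨120, 2, -512, 9, 7, 132, 445495, 0, 0, 0, 0, 0, 0⟩ ⟨120, 2, -512, 9, 7, 132, 445495, 0, 0, 0, 0, 0, 0⟩ ⟨148, 3, -512, 12, 9, 135, 364815, 0, 0, 0, 0, 0, 0⟩ ⟨148, 3, -512, 12, 9, 135, 364815, 0, 0, 0, 0, 0, 0⟩ ⟨195, 2, -512, 9, 6, 138, 575714, 0, 0, 0, 0, 0, 0⟩))
    (.s1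
    (.leaf (.box ⟨121, 1, -694, 6, 2, 175, 503597, 0, 0, 0, 0, 0, 0⟩ ⟨0, 0, 0, 0, 0, 0, 418573, 0, 0, 0, 0, 0, 0⟩ ⟨0, 0, 0, 0, 0, 0, 418573, 0, 0, 0, 0, 0, 0⟩ ⟨0, 0, 0, 0, 0, 0, 358112, 0, 0, 0, 0, 0, 0⟩ ⟨0, 0, 0, 0, 0, 0, 358112, 0, 0, 0, 0, 0, 0⟩ ⟨88, 1, -512, 7, 3, 123, 312912, 0, 0, 0, 0, 0, 0⟩))
    (.leaf (.box ⟨108, 0, -675, 6, 0, 168, 487885, 0, 0, 0, 0, 0, 0⟩ ⟨0, 0, 0, 0, 0, 0, 410766, 0, 0, 0, 0, 0, 0⟩ ⟨0, 0, 0, 0, 0, 0, 410766, 0, 0, 0, 0, 0, 0⟩ ⟨0, 0, 0, 0, 0, 0, 354699, 0, 0, 0, 0, 0, 0⟩ ⟨0, 0, 0, 0, 0, 0, 354699, 0, 0, 0, 0, 0, 0⟩ ⟨65, 0, -512, 7, 0, 116, 312099, 0, 0, 0, 0, 0, 0⟩)))))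
    (.s2
    (.s1
    (.s2
    (.leaf (.box ⟨120, 2, -512, 8, 6, 153, 603148, 0, 0, 0, 0, 0, 0⟩ ⟨0, 0, 0, 0, 0, 0, 491513, 0, 0, 0, 0, 0, 0⟩ ⟨0, 0, 0, 0, 0, 0, 491513, 0, 0, 0, 0, 0, 0⟩ ⟨0, 0, 0, 0, 0, 0, 414748, 0, 0, 0, 0, 0, 0⟩ ⟨0, 0, 0, 0, 0, 0, 414748, 0, 0, 0, 0, 0, 0⟩ ⟨232, 6, -512, 15, 13, 167, 358722, 0, 0, 0, 0, 0, 0⟩))
    (.leaf (.box ⟨132, 1, -512, 8, 6, 161, 603574, 0, 0, 0, 0, 0, 0⟩ ⟨0, 0, 0, 0, 0, 0, 493522, 0, 0, 0, 0, 0, 0⟩ ⟨0, 0, 0, 0, 0, 0, 493522, 0, 0, 0, 0, 0, 0⟩ ⟨0, 0, 0, 0, 0, 0, 417413, 0, 0, 0, 0, 0, 0⟩ ⟨0, 0, 0, 0, 0, 0, 417413, 0, 0, 0, 0, 0, 0⟩ ⟨266, 5, -512, 16, 12, 176, 361642, 0, 0, 0, 0, 0, 0⟩)))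
    (.s0
    (.leaf (.box ⟨82, 1, -551, 6, 0, 154, 570034, 0, 0, 0, 0, 0, 0⟩ ⟨0, 0, 0, 0, 0, 0, 473842, 0, 0, 0, 0, 0, 0⟩ ⟨0, 0, 0, 0, 0, 0, 473842, 0, 0, 0, 0, 0, 0⟩ ⟨0, 0, 0, 0, 0, 0, 405427, 0, 0, 0, 0, 0, 0⟩ ⟨0, 0, 0, 0, 0, 0, 405427, 0, 0, 0, 0, 0, 0⟩ ⟨106, 1, -512, 9, 0, 131, 354275, 0, 0, 0, 0, 0, 0⟩))
    (.leaf (.box ⟨86, 1, -512, 6, -2, 166, 659852, 0, 0, 0, 0, 0, 0⟩ ⟨0, 0, 0, 0, 0, 0, 543702, 0, 0, 0, 0, 0, 0⟩ ⟨0, 0, 0, 0, 0, 0, 543702, 0, 0, 0, 0, 0, 0⟩ ⟨0, 0, 0, 0, 0, 0, 462322, 0, 0, 0, 0, 0, 0⟩ ⟨0, 0, 0, 0, 0, 0, 462322, 0, 0, 0, 0, 0, 0⟩ ⟨125, 2, -512, 9, -3, 149, 402131, 0, 0, 0, 0, 0, 0⟩))))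
    (.s1
    (.leaf (.box ⟨446, 1, -1410, 6, 3, 484, 2465300, 0, 0, 0, 0, 0, 0⟩ ⟨196, 2, -512, 11, 6, 180, 511341, 0, 0, 0, 0, 0, 0⟩ ⟨196, 2, -512, 11, 6, 180, 511341, 0, 0, 0, 0, 0, 0⟩ ⟨251, 3, -512, 14, 8, 186, 420309, 0, 0, 0, 0, 0, 0⟩ ⟨251, 3, -512, 14, 8, 186, 420309, 0, 0, 0, 0, 0, 0⟩ ⟨361, 3, -512, 12, 5, 195, 661250, 0, 0, 0, 0, 0, 0⟩))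
    (.s1
    (.leaf (.box ⟨153, 1, -512, 6, -1, 172, 590631, 0, 0, 0, 0, 0, 0⟩ ⟨0, 0, 0, 0, 0, 0, 489564, 0, 0, 0, 0, 0, 0⟩ ⟨0, 0, 0, 0, 0, 0, 489564, 0, 0, 0, 0, 0, 0⟩ ⟨0, 0, 0, 0, 0, 0, 418031, 0, 0, 0, 0, 0, 0⟩ ⟨0, 0, 0, 0, 0, 0, 418031, 0, 0, 0, 0, 0, 0⟩ ⟨163, 1, -512, 9, -2, 157, 364737, 0, 0, 0, 0, 0, 0⟩))
    (.leaf (.box ⟨136, 0, -512, 7, -4, 167, 577971, 0, 0, 0, 0, 0, 0⟩ ⟨0, 0, 0, 0, 0, 0, 485325, 0, 0, 0, 0, 0, 0⟩ ⟨0, 0, 0, 0, 0, 0, 485325, 0, 0, 0, 0, 0, 0⟩ ⟨0, 0, 0, 0, 0, 0, 418278, 0, 0, 0, 0, 0, 0⟩ ⟨0, 0, 0, 0, 0, 0, 418278, 0, 0, 0, 0, 0, 0⟩ ⟨118, 1, -512, 9, -5, 142, 367506, 0, 0, 0, 0, 0, 0⟩))))))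
    (.s0
    (.s2
    (.s1
    (.leaf (.box ⟨149, 1, -512, 7, 5, 138, 464431, 0, 0, 0, 0, 0, 0⟩ ⟨0, 0, 0, 0, 0, 0, 388430, 0, 0, 0, 0, 0, 0⟩ ⟨0, 0, 0, 0, 0, 0, 388430, 0, 0, 0, 0, 0, 0⟩ ⟨0, 0, 0, 0, 0, 0, 333805, 0, 0, 0, 0, 0, 0⟩ ⟨0, 0, 0, 0, 0, 0, 333805, 0, 0, 0, 0, 0, 0⟩ ⟨266, 2, -512, 13, 8, 143, 292649, 0, 0, 0, 0, 0, 0⟩))
    (.leaf (.box ⟨148, 0, -566, 6, 0, 145, 446684, 0, 0, 0, 0, 0, 0⟩ ⟨0, 0, 0, 0, 0, 0, 378826, 0, 0, 0, 0, 0, 0⟩ ⟨0, 0, 0, 0, 0, 0, 378826, 0, 0, 0, 0, 0, 0⟩ ⟨0, 0, 0, 0, 0, 0, 328865, 0, 0, 0, 0, 0, 0⟩ ⟨0, 0, 0, 0, 0, 0, 328865, 0, 0, 0, 0, 0, 0⟩ ⟨131, 0, -512, 8, 0, 119, 290547, 0, 0, 0, 0, 0, 0⟩)))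
    (.leaf (.box ⟨224, 0, -512, 12, 0, 149, 462629, 0, 0, 0, 0, 0, 0⟩ ⟨0, 0, 0, 0, 0, 0, 390997, 0, 0, 0, 0, 0, 0⟩ ⟨0, 0, 0, 0, 0, 0, 390997, 0, 0, 0, 0, 0, 0⟩ ⟨0, 0, 0, 0, 0, 0, 338574, 0, 0, 0, 0, 0, 0⟩ ⟨0, 0, 0, 0, 0, 0, 338574, 0, 0, 0, 0, 0, 0⟩ ⟨348, 1, -512, 17, 0, 137, 298545, 0, 0, 0, 0, 0, 0⟩)))
    (.s2
    (.leaf (.box ⟨234, 2, -512, 15, -1, 202, 597098, 0, 0, 0, 0, 0, 0⟩ ⟨0, 0, 0, 0, 0, 0, 495839, 0, 0, 0, 0, 0, 0⟩ ⟨0, 0, 0, 0, 0, 0, 495839, 0, 0, 0, 0, 0, 0⟩ ⟨0, 0, 0, 0, 0, 0, 423945, 0, 0, 0, 0, 0, 0⟩ ⟨0, 0, 0, 0, 0, 0, 423945, 0, 0, 0, 0, 0, 0⟩ ⟨512, 4, -506, 28, -2, 185, 370258, 0, 0, 0, 0, 0, 0⟩))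
    (.leaf (.box ⟨461, 1, -512, 19, -5, 255, 604281, 0, 0, 0, 0, 0, 0⟩ ⟨0, 0, 0, 0, 0, 0, 502204, 0, 0, 0, 0, 0, 0⟩ ⟨0, 0, 0, 0, 0, 0, 502204, 0, 0, 0, 0, 0, 0⟩ ⟨0, 0, 0, 0, 0, 0, 429630, 0, 0, 0, 0, 0, 0⟩ ⟨0, 0, 0, 0, 0, 0, 429630, 0, 0, 0, 0, 0, 0⟩ ⟨512, 2, -355, 22, -5, 150, 375382, 0, 0, 0, 0, 0, 0⟩))))

/-- A piece of the tree. -/
noncomputable def tree29 : Tree LeafX :=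
  .s2
    (.s0
    (.s0
    (.leaf (.box ⟨179, 0, -569, 6, 3, 94, 269955, 0, 0, 0, 0, 0, 0⟩ ⟨0, 0, 0, 0, 0, 0, 232027, 0, 0, 0, 0, 0, 0⟩ ⟨0, 0, 0, 0, 0, 0, 232027, 0, 0, 0, 0, 0, 0⟩ ⟨0, 0, 0, 0, 0, 0, 203444, 0, 0, 0, 0, 0, 0⟩ ⟨0, 0, 0, 0, 0, 0, 203444, 0, 0, 0, 0, 0, 0⟩ ⟨169, 0, -512, 9, 4, 86, 181130, 0, 0, 0, 0, 0, 0⟩))
    (.s1
    (.leaf (.box ⟨685, 0, -1290, 6, 1, 313, 1408844, 0, 0, 0, 0, 0, 0⟩ ⟨254, 0, -512, 9, 2, 122, 310865, 0, 0, 0, 0, 0, 0⟩ ⟨254, 0, -512, 9, 2, 122, 310865, 0, 0, 0, 0, 0, 0⟩ ⟨254, 0, -512, 10, 2, 120, 272837, 0, 0, 0, 0, 0, 0⟩ ⟨254, 0, -512, 10, 2, 120, 272837, 0, 0, 0, 0, 0, 0⟩ ⟨267, 0, -541, 6, 1, 125, 471138, 0, 0, 0, 0, 0, 0⟩))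
    (.leaf (.box ⟨277, 0, -792, 6, 0, 168, 359906, 0, 0, 0, 0, 0, 0⟩ ⟨0, 0, 0, 0, 0, 0, 308306, 0, 0, 0, 0, 0, 0⟩ ⟨0, 0, 0, 0, 0, 0, 308306, 0, 0, 0, 0, 0, 0⟩ ⟨0, 0, 0, 0, 0, 0, 269646, 0, 0, 0, 0, 0, 0⟩ ⟨0, 0, 0, 0, 0, 0, 269646, 0, 0, 0, 0, 0, 0⟩ ⟨124, 0, -531, 6, 0, 104, 239601, 0, 0, 0, 0, 0, 0⟩))))
    (.s2
    (.leaf (.box ⟨512, 0, -308, 14, -5, 151, 473673, 0, 0, 0, 0, 0, 0⟩ ⟨0, 0, 0, 0, 0, 0, 400631, 0, 0, 0, 0, 0, 0⟩ ⟨0, 0, 0, 0, 0, 0, 400631, 0, 0, 0, 0, 0, 0⟩ ⟨0, 0, 0, 0, 0, 0, 347106, 0, 0, 0, 0, 0, 0⟩ ⟨0, 0, 0, 0, 0, 0, 347106, 0, 0, 0, 0, 0, 0⟩ ⟨512, 0, -271, 17, -5, 103, 306197, 0, 0, 0, 0, 0, 0⟩))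
    (.leaf (.box ⟨512, 0, -133, 11, -5, 99, 479159, 0, 0, 0, 0, 2172184218, 0⟩ ⟨0, 0, 0, 0, 0, 0, 406960, 0, 0, 0, 0, 0, 0⟩ ⟨0, 0, 0, 0, 0, 0, 406960, 0, 0, 0, 0, 0, 0⟩ ⟨0, 0, 0, 0, 0, 0, 353669, 0, 0, 0, 0, 0, 0⟩ ⟨0, 0, 0, 0, 0, 0, 353669, 0, 0, 0, 0, 0, 0⟩ ⟨512, 0, -189, 16, -6, 83, 312718, 0, 0, 0, 0, 16237334206, 0⟩))))
    (.s0
    (.leaf (.box ⟨512, -1, -385, 14, -1, 87, 292153, 0, 0, 0, 0, 4609763310, 0⟩ ⟨0, 0, 0, 0, 0, 0, 250461, 0, 0, 0, 0, 0, 0⟩ ⟨0, 0, 0, 0, 0, 0, 250461, 0, 0, 0, 0, 0, 0⟩ ⟨0, 0, 0, 0, 0, 0, 219181, 0, 0, 0, 0, 0, 0⟩ ⟨0, 0, 0, 0, 0, 0, 219181, 0, 0, 0, 0, 0, 0⟩ ⟨403, -2, -512, 22, -1, 102, 194847, 0, 0, 0, 0, 6411857556, 0⟩))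
    (.leaf (.skip 8 0)))

theorem parts0 :
    (runPathS conQ supQ (fun n Qs i d x => leafR conQ seg n Qs i d x) [.d0 false, .d1 false, .d2 false] tree0 0 0 0
      (joinS (lay.B * lay.size) rootQ) = true) ∧
    (runPathS conQ supQ (fun n Qs i d x => leafR conQ seg n Qs i d x) [.d0 false, .d1 false, .d2 true, .d0 false, .d1 false, .d3 false] tree1 0 0 0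
      (joinS (lay.B * lay.size) rootQ) = true) ∧
    (runPathS conQ supQ (fun n Qs i d x => leafR conQ seg n Qs i d x) [.d0 false, .d1 false, .d2 true, .d0 false, .d1 false, .d3 true] tree2 0 0 0
      (joinS (lay.B * lay.size) rootQ) = true) ∧
    (runPathS conQ supQ (fun n Qs i d x => leafR conQ seg n Qs i d x) [.d0 false, .d1 false, .d2 true, .d0 false, .d1 true] tree3 0 0 0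
      (joinS (lay.B * lay.size) rootQ) = true) ∧
    (runPathS conQ supQ (fun n Qs i d x => leafR conQ seg n Qs i d x) [.d0 false, .d1 false, .d2 true, .d0 true, .d1 false, .d2 false] tree4 0 0 0
      (joinS (lay.B * lay.size) rootQ) = true) ∧
    (runPathS conQ supQ (fun n Qs i d x => leafR conQ seg n Qs i d x) [.d0 false, .d1 false, .d2 true, .d0 true, .d1 false, .d2 true, .d2 false] tree5 0 0 0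
      (joinS (lay.B * lay.size) rootQ) = true) ∧
    (runPathS conQ supQ (fun n Qs i d x => leafR conQ seg n Qs i d x) [.d0 false, .d1 false, .d2 true, .d0 true, .d1 false, .d2 true, .d2 true] tree6 0 0 0
      (joinS (lay.B * lay.size) rootQ) = true) ∧
    (runPathS conQ supQ (fun n Qs i d x => leafR conQ seg n Qs i d x) [.d0 false, .d1 false, .d2 true, .d0 true, .d1 true] tree7 0 0 0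
      (joinS (lay.B * lay.size) rootQ) = true) ∧
    (runPathS conQ supQ (fun n Qs i d x => leafR conQ seg n Qs i d x) [.d0 false, .d1 true, .d2 false, .d0 false] tree8 0 0 0
      (joinS (lay.B * lay.size) rootQ) = true) ∧
    (runPathS conQ supQ (fun n Qs i d x => leafR conQ seg n Qs i d x) [.d0 false, .d1 true, .d2 false, .d0 true] tree9 0 0 0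
      (joinS (lay.B * lay.size) rootQ) = true) ∧
    (runPathS conQ supQ (fun n Qs i d x => leafR conQ seg n Qs i d x) [.d0 false, .d1 true, .d2 true, .d0 false, .d1 false] tree10 0 0 0
      (joinS (lay.B * lay.size) rootQ) = true) ∧
    (runPathS conQ supQ (fun n Qs i d x => leafR conQ seg n Qs i d x) [.d0 false, .d1 true, .d2 true, .d0 false, .d1 true] tree11 0 0 0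
      (joinS (lay.B * lay.size) rootQ) = true) ∧
    (runPathS conQ supQ (fun n Qs i d x => leafR conQ seg n Qs i d x) [.d0 false, .d1 true, .d2 true, .d0 true, .d1 false] tree12 0 0 0
      (joinS (lay.B * lay.size) rootQ) = true) ∧
    (runPathS conQ supQ (fun n Qs i d x => leafR conQ seg n Qs i d x) [.d0 false, .d1 true, .d2 true, .d0 true, .d1 true, .d2 false, .d3 false] tree13 0 0 0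
      (joinS (lay.B * lay.size) rootQ) = true) ∧
    (runPathS conQ supQ (fun n Qs i d x => leafR conQ seg n Qs i d x) [.d0 false, .d1 true, .d2 true, .d0 true, .d1 true, .d2 false, .d3 true] tree14 0 0 0
      (joinS (lay.B * lay.size) rootQ) = true) ∧
    (runPathS conQ supQ (fun n Qs i d x => leafR conQ seg n Qs i d x) [.d0 false, .d1 true, .d2 true, .d0 true, .d1 true, .d2 true] tree15 0 0 0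
      (joinS (lay.B * lay.size) rootQ) = true) ∧
    (runPathS conQ supQ (fun n Qs i d x => leafR conQ seg n Qs i d x) [.d0 true, .d1 false, .d2 false, .d0 false] tree16 0 0 0
      (joinS (lay.B * lay.size) rootQ) = true) ∧
    (runPathS conQ supQ (fun n Qs i d x => leafR conQ seg n Qs i d x) [.d0 true, .d1 false, .d2 false, .d0 true, .d1 false] tree17 0 0 0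
      (joinS (lay.B * lay.size) rootQ) = true) ∧
    (runPathS conQ supQ (fun n Qs i d x => leafR conQ seg n Qs i d x) [.d0 true, .d1 false, .d2 false, .d0 true, .d1 true, .d0 false, .d2 false] tree18 0 0 0
      (joinS (lay.B * lay.size) rootQ) = true) ∧
    (runPathS conQ supQ (fun n Qs i d x => leafR conQ seg n Qs i d x) [.d0 true, .d1 false, .d2 false, .d0 true, .d1 true, .d0 false, .d2 true, .d2 false] tree19 0 0 0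
      (joinS (lay.B * lay.size) rootQ) = true) ∧
    (runPathS conQ supQ (fun n Qs i d x => leafR conQ seg n Qs i d x) [.d0 true, .d1 false, .d2 false, .d0 true, .d1 true, .d0 false, .d2 true, .d2 true, .d1 false] tree20 0 0 0
      (joinS (lay.B * lay.size) rootQ) = true) ∧
    (runPathS conQ supQ (fun n Qs i d x => leafR conQ seg n Qs i d x) [.d0 true, .d1 false, .d2 false, .d0 true, .d1 true, .d0 false, .d2 true, .d2 true, .d1 true, .d0 false] tree21 0 0 0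
      (joinS (lay.B * lay.size) rootQ) = true) ∧
    (runPathS conQ supQ (fun n Qs i d x => leafR conQ seg n Qs i d x) [.d0 true, .d1 false, .d2 false, .d0 true, .d1 true, .d0 false, .d2 true, .d2 true, .d1 true, .d0 true, .d2 false] tree22 0 0 0
      (joinS (lay.B * lay.size) rootQ) = true) ∧
    (runPathS conQ supQ (fun n Qs i d x => leafR conQ seg n Qs i d x) [.d0 true, .d1 false, .d2 false, .d0 true, .d1 true, .d0 false, .d2 true, .d2 true, .d1 true, .d0 true, .d2 true] tree23 0 0 0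
      (joinS (lay.B * lay.size) rootQ) = true) ∧
    (runPathS conQ supQ (fun n Qs i d x => leafR conQ seg n Qs i d x) [.d0 true, .d1 false, .d2 false, .d0 true, .d1 true, .d0 true] tree24 0 0 0
      (joinS (lay.B * lay.size) rootQ) = true) ∧
    (runPathS conQ supQ (fun n Qs i d x => leafR conQ seg n Qs i d x) [.d0 true, .d1 false, .d2 true, .d0 false, .d1 false, .d1 false] tree25 0 0 0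
      (joinS (lay.B * lay.size) rootQ) = true) ∧
    (runPathS conQ supQ (fun n Qs i d x => leafR conQ seg n Qs i d x) [.d0 true, .d1 false, .d2 true, .d0 false, .d1 false, .d1 true] tree26 0 0 0
      (joinS (lay.B * lay.size) rootQ) = true) ∧
    (runPathS conQ supQ (fun n Qs i d x => leafR conQ seg n Qs i d x) [.d0 true, .d1 false, .d2 true, .d0 false, .d1 true, .d2 false, .d0 false] tree27 0 0 0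
      (joinS (lay.B * lay.size) rootQ) = true) ∧
    (runPathS conQ supQ (fun n Qs i d x => leafR conQ seg n Qs i d x) [.d0 true, .d1 false, .d2 true, .d0 false, .d1 true, .d2 false, .d0 true] tree28 0 0 0
      (joinS (lay.B * lay.size) rootQ) = true) ∧
    (runPathS conQ supQ (fun n Qs i d x => leafR conQ seg n Qs i d x) [.d0 true, .d1 false, .d2 true, .d0 false, .d1 true, .d2 true] tree29 0 0 0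
      (joinS (lay.B * lay.size) rootQ) = true) :=
  ⟨by decide +kernel,
  by decide +kernel,
  by decide +kernel,
  by decide +kernel,
  by decide +kernel,
  by decide +kernel,
  by decide +kernel,
  by decide +kernel,
  by decide +kernel,
  by decide +kernel,
  by decide +kernel,
  by decide +kernel,
  by decide +kernel,
  by decide +kernel,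
  by decide +kernel,
  by decide +kernel,
  by decide +kernel,
  by decide +kernel,
  by decide +kernel,
  by decide +kernel,
  by decide +kernel,
  by decide +kernel,
  by decide +kernel,
  by decide +kernel,
  by decide +kernel,
  by decide +kernel,
  by decide +kernel,
  by decide +kernel,
  by decide +kernel,
  by decide +kernel⟩

end Vale.Agent.P098.Six.S13
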